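import Vale.Agent.P012.MathlibUsed
import Vale.Agent.P012.Defs

set_option linter.all false

section

section

namespace Vale.Agent.P012

open Finset

theorem prime_count : ∃ m₀ : ℕ, ∀ m ≥ m₀,
    ((m : ℝ) ^ 48) ≤ 100 * Real.log m *
      (((Finset.Ioc (m ^ 2) (m ^ 48)).filter Nat.Prime).card : ℝ) := by
  refine ⟨10, fun m hm => ?_⟩
  set P := (Finset.Ioc (m ^ 2) (m ^ 48)).filter Nat.Prime with hP
  have hm10 : (10 : ℝ) ≤ m := by exact_mod_cast hm
  have hlogm : 0 < Real.log m := Real.log_pos (by linarith only [hm10])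
  have hlogm' : Real.log m ≤ m := by
    have := Real.log_le_sub_one_of_pos (x := m) (by linarith only [hm10])
    linarith only [this]
  -- counting
  have hcount : Nat.primeCounting (m ^ 48) ≤ P.card + (m ^ 2 + 1) := by
    rw [Nat.primeCounting, Nat.primeCounting', Nat.count_eq_card_filter_range]
    have hsub : (Finset.range (m ^ 48 + 1)).filter Nat.Prime ⊆ P ∪ Finset.range (m ^ 2 + 1) := by
      intro p hp
      rw [Finset.mem_filter, Finset.mem_range] at hp
      rw [Finset.mem_union, hP, Finset.mem_filter, Finset.mem_Ioc, Finset.mem_range]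
      by_cases h : p < m ^ 2 + 1
      · exact Or.inr h
      · exact Or.inl ⟨⟨by omega, by omega⟩, hp.2⟩
    calc _ ≤ (P ∪ Finset.range (m ^ 2 + 1)).card := Finset.card_le_card hsub
      _ ≤ P.card + (Finset.range (m ^ 2 + 1)).card := Finset.card_union_le _ _
      _ = P.card + (m ^ 2 + 1) := by rw [Finset.card_range]
  have hcountR : (Nat.primeCounting (m ^ 48) : ℝ) ≤ P.card + ((m : ℝ) ^ 2 + 1) := by
    exact_mod_cast hcount
  have hpi := Chebyshev.pi_ge (m ^ 48)
  have hlogn : Real.log ((m ^ 48 : ℕ) : ℝ) = 48 * Real.log m := by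
    push_cast
    rw [Real.log_pow]
    norm_num
  rw [hlogn, div_le_iff₀ (by positivity)] at hpi
  push_cast at hpi
  have hlog1 : Real.log ((m : ℝ) ^ 48 + 1) ≤ 1 + 48 * m := by
    have h1 : (m : ℝ) ^ 48 + 1 ≤ 2 * (m : ℝ) ^ 48 := by
      have : (1 : ℝ) ≤ (m : ℝ) ^ 48 := one_le_pow₀ (by linarith only [hm10])
      linarith only [this]
    have h2 : Real.log ((m : ℝ) ^ 48 + 1) ≤ Real.log (2 * (m : ℝ) ^ 48) :=
      Real.log_le_log (by positivity) h1
    rw [Real.log_mul (by norm_num) (by positivity), Real.log_pow] at h2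
    have h3 : Real.log 2 ≤ 1 := by
      have := Real.log_le_sub_one_of_pos (x := 2) (by norm_num)
      linarith only [this]
    push_cast at h2
    nlinarith only [hlogm', h2, h3]
  have hlog2 := Real.log_two_gt_d9
  have hbig : (1000000 : ℝ) * (m : ℝ) ^ 3 ≤ (m : ℝ) ^ 48 := by
    calc (1000000 : ℝ) * (m : ℝ) ^ 3 ≤ (m : ℝ) ^ 45 * (m : ℝ) ^ 3 := by
          gcongr
          calc (1000000 : ℝ) = 10 ^ 6 := by norm_num
            _ ≤ 10 ^ 45 := by norm_num
            _ ≤ (m : ℝ) ^ 45 := by (clear * - hm10; gcongr)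
      _ = (m : ℝ) ^ 48 := by rw [← pow_add]
  have hX : (0 : ℝ) ≤ (m : ℝ) ^ 48 := by positivity
  have hm3 : (m : ℝ) * ((m : ℝ) ^ 2 + 1) ≤ 2 * (m : ℝ) ^ 3 := by nlinarith only [hm10]
  have hm3' : (m : ℝ) ≤ (m : ℝ) ^ 3 := by nlinarith only [hm3]
  have hmm : Real.log m * ((m : ℝ) ^ 2 + 1) ≤ 2 * (m : ℝ) ^ 3 :=
    (mul_le_mul_of_nonneg_right hlogm' (by positivity)).trans hm3
  have hcard : 48 * (Real.log m * (Nat.primeCounting (m ^ 48) : ℝ)) ≤
      48 * (Real.log m * P.card) + 48 * (Real.log m * ((m : ℝ) ^ 2 + 1)) := by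
    have := mul_le_mul_of_nonneg_left hcountR hlogm.le
    nlinarith only [this]
  nlinarith only [hm10, hpi, hlog1, hbig, hmm, hcard, hlog2, hX]

end Vale.Agent.P012
end
end

section

section

namespace Vale.Agent.P012

open Finset

theorem sum_Ioc_rpow_le (z Z : ℕ) (hz : 0 < z) (hzZ : z ≤ Z) (r : ℝ) (hr : r ≤ 0) (hr1 : r ≠ -1) :
    ∑ g ∈ Finset.Ioc z Z, (g : ℝ) ^ r ≤ ((Z : ℝ) ^ (r + 1) - (z : ℝ) ^ (r + 1)) / (r + 1) := by
  have hz' : (0 : ℝ) < z := by exact_mod_cast hz
  have hzZ' : (z : ℝ) ≤ Z := by exact_mod_cast hzZ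
  have hanti : AntitoneOn (fun x : ℝ => x ^ r) (Set.Icc (z : ℝ) Z) := by
    intro a ha b hb hab
    exact Real.rpow_le_rpow_of_nonpos (lt_of_lt_of_le hz' ha.1) hab hr
  have h1 := AntitoneOn.sum_le_integral_Ico hzZ hanti
  have h2 : ∫ x in (z : ℝ)..(Z : ℝ), x ^ r = ((Z : ℝ) ^ (r + 1) - (z : ℝ) ^ (r + 1)) / (r + 1) := by
    apply integral_rpow
    right
    refine ⟨hr1, ?_⟩
    rw [Set.uIcc_of_le hzZ', Set.mem_Icc]
    intro h; linarith only [hz', h]
  rw [h2] at h1
  have h3 : ∑ g ∈ Finset.Ioc z Z, (g : ℝ) ^ r = ∑ i ∈ Finset.Ico z Z, ((i + 1 : ℕ) : ℝ) ^ r := by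
    have : Finset.Ioc z Z = (Finset.Ico z Z).image (fun i => i + 1) := by
      ext g
      simp only [Finset.mem_Ioc, Finset.mem_image, Finset.mem_Ico]
      constructor
      · intro h; exact ⟨g - 1, by omega, by omega⟩
      · rintro ⟨i, hi, rfl⟩; omega
    rw [this, Finset.sum_image (by intro a _ b _ h; simpa using h)]
  rw [h3]
  exact h1

theorem sum_Ioc_rpow_tail (z Z : ℕ) (hz : 0 < z) (hzZ : z ≤ Z) :
    ∑ g ∈ Finset.Ioc z Z, (g : ℝ) ^ (-(9 / 8) : ℝ) ≤ 8 * (z : ℝ) ^ (-(1 / 8) : ℝ) := by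
  refine (sum_Ioc_rpow_le z Z hz hzZ _ (by norm_num) (by norm_num)).trans ?_
  have h1 : (-(9 / 8) : ℝ) + 1 = -(1 / 8) := by norm_num
  rw [h1]
  have h2 : (0 : ℝ) ≤ (Z : ℝ) ^ (-(1 / 8) : ℝ) := by positivity
  have h3 : ((Z : ℝ) ^ (-(1 / 8) : ℝ) - (z : ℝ) ^ (-(1 / 8) : ℝ)) / (-(1 / 8))
      = 8 * (z : ℝ) ^ (-(1 / 8) : ℝ) - 8 * (Z : ℝ) ^ (-(1 / 8) : ℝ) := by ring
  rw [h3]
  linarith only [h2]

theorem sum_Ioc_rpow_head (z Z : ℕ) (hz : 0 < z) (hzZ : z ≤ Z) :
    ∑ g ∈ Finset.Ioc z Z, (g : ℝ) ^ (-(1 / 8) : ℝ) ≤ 2 * (Z : ℝ) ^ (7 / 8 : ℝ) := by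
  refine (sum_Ioc_rpow_le z Z hz hzZ _ (by norm_num) (by norm_num)).trans ?_
  have h1 : (-(1 / 8) : ℝ) + 1 = 7 / 8 := by norm_num
  rw [h1]
  have h2 : (0 : ℝ) ≤ (z : ℝ) ^ (7 / 8 : ℝ) := by positivity
  have h4 : (0 : ℝ) ≤ (Z : ℝ) ^ (7 / 8 : ℝ) := by positivity
  have h3 : ((Z : ℝ) ^ (7 / 8 : ℝ) - (z : ℝ) ^ (7 / 8 : ℝ)) / (7 / 8)
      = (8 / 7) * (Z : ℝ) ^ (7 / 8 : ℝ) - (8 / 7) * (z : ℝ) ^ (7 / 8 : ℝ) := by ring
  rw [h3]
  (clear * - h2 h4; linarith)

end Vale.Agent.P012
end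
end

section

section

namespace Vale.Agent.P012

open Finset

/-- `x` is a sum of at most `k` unit fractions, repetitions allowed. -/
def IsUF (k : ℕ) (x : ℚ) : Prop :=
  ∃ m : Multiset ℕ, (∀ n ∈ m, 0 < n) ∧ m.card ≤ k ∧ (m.map (fun n : ℕ => (1 : ℚ) / n)).sum = x

/-- The divisor `∏_{i ∈ S} x_i`. -/
def pr {n : ℕ} (x : Fin n → ℕ) (S : Finset (Fin n)) : ℕ := ∏ i ∈ S, x i

/-- Number of collisions modulo `g` among the `2^n` subset products. -/
def coll {n : ℕ} (x : Fin n → ℕ) (g : ℕ) : ℕ :=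
  ((univ : Finset (Finset (Fin n) × Finset (Fin n))).filter
    (fun p => pr x p.1 ≡ pr x p.2 [MOD g])).card

end Vale.Agent.P012
end
end

section

section

namespace Vale.Agent.P012

theorem sum_pos_of_card {m : Multiset ℕ} (hm : 0 < Multiset.card m) (hpos : ∀ n ∈ m, 0 < n) :
    0 < (m.map (fun n : ℕ => 1 / (n : ℚ))).sum := by
  obtain ⟨a, ha⟩ := Multiset.card_pos_iff_exists_mem.1 hm
  obtain ⟨m', rfl⟩ := Multiset.exists_cons_of_mem ha
  rw [Multiset.map_cons, Multiset.sum_cons]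
  have h1 : (0 : ℚ) < 1 / (a : ℚ) := by
    have : (0 : ℚ) < a := by exact_mod_cast hpos a ha
    positivity
  have h2 : (0 : ℚ) ≤ (m'.map (fun n : ℕ => 1 / (n : ℚ))).sum := by
    apply Multiset.sum_nonneg
    intro x hx
    obtain ⟨n, _, rfl⟩ := Multiset.mem_map.1 hx
    (clear * -; positivity)
  linarith

theorem sum_nonneg' (m : Multiset ℕ) : 0 ≤ (m.map (fun n : ℕ => 1 / (n : ℚ))).sum := by
  apply Multiset.sum_nonneg
  intro x hx
  obtain ⟨n, _, rfl⟩ := Multiset.mem_map.1 hx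
  positivity

theorem sum_le_of_forall {m : Multiset ℕ} {B : ℚ} (hB : 0 < B) (h : ∀ n ∈ m, B ≤ (n : ℚ)) :
    (m.map (fun n : ℕ => 1 / (n : ℚ))).sum ≤ (Multiset.card m : ℚ) * (1 / B) := by
  have := Multiset.sum_le_card_nsmul (m.map (fun n : ℕ => 1 / (n : ℚ))) (1 / B) (by
    intro x hx
    obtain ⟨n, hn, rfl⟩ := Multiset.mem_map.1 hx
    exact one_div_le_one_div_of_le hB (h n hn))
  rw [Multiset.card_map, nsmul_eq_mul] at this
  exact this

theorem finite_reps (k : ℕ) : ∀ s : ℚ, {m : Multiset ℕ | Multiset.card m = k ∧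
    (∀ n ∈ m, 0 < n) ∧ (m.map (fun n : ℕ => 1 / (n : ℚ))).sum = s}.Finite := by
  induction k with
  | zero =>
    intro s
    apply (Set.finite_singleton (0 : Multiset ℕ)).subset
    rintro m ⟨hm, -⟩
    simpa using Multiset.card_eq_zero.1 hm
  | succ k ih =>
    intro s
    by_cases hs : 0 < s
    · obtain ⟨B, hB⟩ := exists_nat_gt (((k + 1 : ℕ) : ℚ) / s)
      have hBpos : (0 : ℚ) < B := lt_of_le_of_lt (by positivity) hB
      have hfin : (⋃ n ∈ (Finset.range B : Finset ℕ), (fun m : Multiset ℕ => n ::ₘ m) ''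
          {m : Multiset ℕ | Multiset.card m = k ∧ (∀ n ∈ m, 0 < n) ∧
            (m.map (fun n : ℕ => 1 / (n : ℚ))).sum = s - 1 / (n : ℚ)}).Finite :=
        Set.Finite.biUnion (Finset.finite_toSet _) (fun n _ => (ih _).image _)
      apply hfin.subset
      rintro m ⟨hcard, hpos, hsum⟩
      have hex : ∃ n ∈ m, n < B := by
        by_contra hcon
        push Not at hcon
        have h1 := sum_le_of_forall hBpos (m := m) (fun n hn => by exact_mod_cast hcon n hn)
        rw [hsum, hcard] at h1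
        have h2 : ((k + 1 : ℕ) : ℚ) * (1 / B) < s := by
          rw [div_lt_iff₀ hs] at hB
          rw [mul_one_div, div_lt_iff₀ hBpos]
          linarith only [hB]
        linarith only [h1, h2]
      obtain ⟨n, hn, hnB⟩ := hex
      obtain ⟨m', rfl⟩ := Multiset.exists_cons_of_mem hn
      simp only [Set.mem_iUnion]
      refine ⟨n, Finset.mem_range.2 hnB, m', ⟨?_, ?_, ?_⟩, rfl⟩
      · simpa using hcard
      · intro a ha
        exact hpos a (Multiset.mem_cons_of_mem ha)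
      · rw [Multiset.map_cons, Multiset.sum_cons] at hsum
        linarith only [hsum]
    · convert Set.finite_empty
      ext m
      simp only [Set.mem_ofPred_eq, Set.mem_empty_iff_false, iff_false, not_and]
      intro hcard hpos hsum
      have := sum_pos_of_card (m := m) (by omega) hpos
      rw [hsum] at this
      exact hs this

/-- A rational in `(0,1)` which is a sum of at most `k` unit fractions is a sum of at most `k`
distinct unit fractions. -/
theorem IsUF.exists_finset {k : ℕ} {s : ℚ} (h1 : s < 1) (h : IsUF k s) :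
    ∃ S : Finset ℕ, S.card ≤ k ∧ (∀ n ∈ S, 2 ≤ n) ∧ ∑ n ∈ S, (1 : ℚ) / n = s := by
  classical
  obtain ⟨m₀, hm₀pos, hm₀card, hm₀sum⟩ := h
  have hex : ∃ j : ℕ, ∃ m : Multiset ℕ, Multiset.card m = j ∧
      (∀ n ∈ m, 0 < n) ∧ (m.map (fun n : ℕ => 1 / (n : ℚ))).sum = s :=
    ⟨_, m₀, rfl, hm₀pos, hm₀sum⟩
  set j := Nat.find hex with hj
  have hjk : j ≤ k := (Nat.find_min' hex ⟨m₀, rfl, hm₀pos, hm₀sum⟩).trans hm₀card
  obtain ⟨m, ⟨hmcard, hmpos, hmsum⟩, hmax⟩ :=
    Set.exists_max_image _ (fun m : Multiset ℕ => m.sum) (finite_reps j s) (Nat.find_spec hex)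
  have hnodup : m.Nodup := by
    rw [Multiset.nodup_iff_le]
    intro a ha
    obtain ⟨m', rfl⟩ := Multiset.le_iff_exists_add.1 ha
    have hrw : (a ::ₘ a ::ₘ (0 : Multiset ℕ)) + m' = a ::ₘ a ::ₘ m' := by simp
    rw [hrw] at hmcard hmpos hmsum hmax
    have hapos : 0 < a := hmpos a (by simp)
    simp only [Multiset.map_cons, Multiset.sum_cons, Multiset.card_cons] at hmcard hmsum
    have hm'nn := sum_nonneg' m'
    have hane : a ≠ 1 := by
      rintro rfl
      rw [Nat.cast_one, div_one] at hmsum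
      linarith only [h1, hm'nn, hmsum]
    rcases Nat.even_or_odd' a with ⟨c, rfl | rfl⟩
    · have hc : 0 < c := by omega
      have hcq : (c : ℚ) ≠ 0 := by exact_mod_cast hc.ne'
      refine Nat.find_min hex (m := Multiset.card (c ::ₘ m')) ?_ ⟨c ::ₘ m', rfl, ?_, ?_⟩
      · rw [Multiset.card_cons]; omega
      · intro n hn
        rcases Multiset.mem_cons.1 hn with rfl | hn
        · exact hc
        · exact hmpos n (by simp [hn])
      · rw [Multiset.map_cons, Multiset.sum_cons, ← hmsum]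
        push_cast
        field_simp
        ring
    · have hc : 0 < c := by omega
      have hcq : (c : ℚ) + 1 ≠ 0 := by (clear * - hc; positivity)
      have hcq2 : 2 * (c : ℚ) + 1 ≠ 0 := by positivity
      have hmem := hmax ((c + 1) ::ₘ ((2 * c + 1) * (c + 1)) ::ₘ m') ⟨?_, ?_, ?_⟩
      · simp only [Multiset.sum_cons] at hmem
        nlinarith only [hc, hmem]
      · simp only [Multiset.card_cons]; omega
      · intro n hn
        rcases Multiset.mem_cons.1 hn with rfl | hn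
        · omega
        · rcases Multiset.mem_cons.1 hn with rfl | hn
          · (clear * - hc; positivity)
          · exact hmpos n (by simp [hn])
      · simp only [Multiset.map_cons, Multiset.sum_cons]
        rw [← hmsum]
        push_cast
        field_simp
        ring
  refine ⟨⟨m, hnodup⟩, ?_, ?_, ?_⟩
  · change Multiset.card m ≤ k
    omega
  · intro n hn
    have hn' : n ∈ m := hn
    have hpos := hmpos n hn'
    rcases Nat.lt_or_ge n 2 with h | h
    · exfalso
      have hn1 : n = 1 := by omega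
      subst hn1
      obtain ⟨m', rfl⟩ := Multiset.exists_cons_of_mem hn'
      rw [Multiset.map_cons, Multiset.sum_cons] at hmsum
      have := sum_nonneg' m'
      rw [Nat.cast_one, div_one] at hmsum
      linarith only [h1, hmsum, this]
    · exact h
  · exact hmsum

end Vale.Agent.P012
end
end

section

section

namespace Vale.Agent.P012

/-- gap lemma: a positive difference between `p / q` and a sum of `k` unit fractions is not
too small -/
theorem gap_aux (K : ℕ) (hK : 1 ≤ K) (k : ℕ) : k ≤ K → ∀ (p q : ℕ), 0 < q →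
    ∀ m : Multiset ℕ, Multiset.card m = k → (∀ n ∈ m, 0 < n) →
    0 < (p : ℚ) / q - (m.map (fun n : ℕ => 1 / (n : ℚ))).sum →
    (K : ℚ) ≤ (2 * K * q : ℚ) ^ (2 ^ k) *
      ((p : ℚ) / q - (m.map (fun n : ℕ => 1 / (n : ℚ))).sum) := by
  have hKq : (1 : ℚ) ≤ K := by exact_mod_cast hK
  induction k with
  | zero =>
    intro _ p q hq m hm hpos h
    obtain rfl := Multiset.card_eq_zero.1 hm
    have hq0 : (0 : ℚ) < q := by exact_mod_cast hq
    simp only [Multiset.map_zero, Multiset.sum_zero, sub_zero, pow_zero, pow_one] at h ⊢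
    have hp : 0 < p := by
      rcases Nat.eq_zero_or_pos p with rfl | hp
      · simp at h
      · exact hp
    have hp1 : (1 : ℚ) ≤ p := by exact_mod_cast hp
    have : (2 * K * q : ℚ) * (p / q) = 2 * K * p := by (clear * - hq hp hK; field_simp)
    rw [this]
    nlinarith only [hp1]
  | succ k ih =>
    intro hk p q hq m hm hpos h
    have hq0 : (0 : ℚ) < q := by exact_mod_cast hq
    have hq1 : (1 : ℚ) ≤ q := by exact_mod_cast hq
    have hbase : (1 : ℚ) ≤ 2 * K * q := by nlinarith only [hKq, hq1]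
    set x := (p : ℚ) / q - (m.map (fun n : ℕ => 1 / (n : ℚ))).sum with hx
    by_cases hcase : ∀ n ∈ m, 2 * K * q ≤ n
    · have hsum := sum_le_of_forall (m := m) (B := 2 * K * q) (by positivity)
        (fun n hn => by exact_mod_cast hcase n hn)
      rw [hm] at hsum
      have hsn := sum_nonneg' m
      have hp : 0 < p := by
        rcases Nat.eq_zero_or_pos p with rfl | hp
        · simp only [Nat.cast_zero, zero_div, zero_sub] at hx
          linarith only [hsn, h, hx]
        · exact hp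
      have hp1 : (1 : ℚ) ≤ p := by exact_mod_cast hp
      have hx2 : 1 / (2 * q : ℚ) ≤ x := by
        have h1 : (1 : ℚ) / q ≤ p / q := by (clear * - hp1 hq; gcongr)
        have h2 : ((k + 1 : ℕ) : ℚ) * (1 / (2 * K * q)) ≤ 1 / (2 * q) := by
          have hkK : ((k + 1 : ℕ) : ℚ) ≤ K := by exact_mod_cast hk
          calc ((k + 1 : ℕ) : ℚ) * (1 / (2 * K * q)) ≤ K * (1 / (2 * K * q)) := by (clear * - hkK hK hq; gcongr)
            _ = 1 / (2 * q) := by field_simp
        have h3 : (1 : ℚ) / q - 1 / (2 * q) = 1 / (2 * q) := by field_simp; ring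
        linarith only [hsum, h1, h2, h3]
      calc (K : ℚ) = (2 * K * q) * (1 / (2 * q)) := by field_simp
        _ ≤ (2 * K * q) ^ (2 ^ (k + 1)) * x := by
          apply mul_le_mul _ hx2 (by positivity) (by positivity)
          exact le_self_pow₀ hbase (by positivity)
    · push Not at hcase
      obtain ⟨n, hn, hnlt⟩ := hcase
      obtain ⟨m', rfl⟩ := Multiset.exists_cons_of_mem hn
      have hn0 : 0 < n := hpos n hn
      have hn0q : (0 : ℚ) < n := by exact_mod_cast hn0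
      rw [Multiset.map_cons, Multiset.sum_cons] at hx
      have hm'nn := sum_nonneg' m'
      have hpn : q ≤ p * n := by
        have h1 : 0 < (p : ℚ) / q - 1 / n := by linarith only [h, hx, hm'nn]
        have h2 : (1 : ℚ) / n < p / q := by linarith only [h, hx, hm'nn]
        rw [div_lt_div_iff₀ hn0q hq0] at h2
        have : (1 * q : ℕ) < p * n := by exact_mod_cast h2
        omega
      have hcast : ((p * n - q : ℕ) : ℚ) / ((q * n : ℕ) : ℚ) = p / q - 1 / n := by
        rw [Nat.cast_sub hpn]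
        push_cast
        field_simp
      have hIH := ih (by omega) (p * n - q) (q * n) (by positivity) m' (by simpa using hm)
        (fun a ha => hpos a (Multiset.mem_cons_of_mem ha)) (by rw [hcast]; linarith only [h, hx])
      rw [hcast] at hIH
      have hx' : (p : ℚ) / q - 1 / n - (m'.map (fun n : ℕ => 1 / (n : ℚ))).sum = x := by
        rw [hx]; ring
      rw [hx'] at hIH
      refine hIH.trans ?_
      apply mul_le_mul_of_nonneg_right _ h.le
      have hnq : (n : ℚ) ≤ 2 * K * q := by exact_mod_cast hnlt.le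
      calc (2 * (K : ℚ) * ((q * n : ℕ) : ℚ)) ^ 2 ^ k = ((2 * (K : ℚ) * q) * n) ^ 2 ^ k := by
            push_cast; ring
        _ ≤ ((2 * (K : ℚ) * q) * (2 * K * q)) ^ 2 ^ k := by (clear * - hK hq hn0 hnq; gcongr)
        _ = (2 * (K : ℚ) * q) ^ 2 ^ (k + 1) := by
          rw [← sq, ← pow_mul, pow_succ, mul_comm (2 ^ k) 2]

theorem lower_bound (k : ℕ) (s : Finset ℕ) (hs : s.card = k) (hpos : ∀ n ∈ s, 2 ≤ n)
    (hlt : ∑ n ∈ s, (1 : ℚ) / n < 1) :
    (1 : ℚ) / (2 * (2 * (k + 1)) ^ (2 ^ (k + 1))) ≤ 1 - ∑ n ∈ s, (1 : ℚ) / n := by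
  have h := gap_aux (k + 1) (by omega) k (by omega) 1 1 one_pos s.val hs
    (fun n hn => by have := hpos n hn; omega) (by
      have : (s.val.map (fun n : ℕ => 1 / (n : ℚ))).sum = ∑ n ∈ s, (1 : ℚ) / n := rfl
      rw [this]; simpa only [Nat.cast_one, ne_eq, one_ne_zero, not_false_eq_true, div_self, one_div, sub_pos, gt_iff_lt] using     hlt)
  have hrw : (s.val.map (fun n : ℕ => 1 / (n : ℚ))).sum = ∑ n ∈ s, (1 : ℚ) / n := rfl
  rw [hrw] at h
  simp only [Nat.cast_one, div_one, mul_one] at h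
  set x := 1 - ∑ n ∈ s, (1 : ℚ) / n with hx
  have hxpos : 0 < x := by rw [hx]; linarith only [hlt]
  have hb : (1 : ℚ) ≤ 2 * ((k + 1 : ℕ) : ℚ) := by push_cast; nlinarith only []
  rw [div_le_iff₀ (by positivity)]
  have h1 : (2 * ((k + 1 : ℕ) : ℚ)) ^ 2 ^ k ≤ (2 * ((k + 1 : ℕ) : ℚ)) ^ 2 ^ (k + 1) :=
    pow_le_pow_right₀ hb (Nat.pow_le_pow_right (by norm_num) (by omega))
  have h2 : (1 : ℚ) ≤ ((k + 1 : ℕ) : ℚ) := by push_cast; nlinarith only []
  push_cast at h h1 h2
  nlinarith only [h, h1, hxpos]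

end Vale.Agent.P012
end
end

section

section

namespace Vale.Agent.P012

open Filter Asymptotics

theorem isUF_self (a b : ℕ) (hb : 0 < b) : IsUF a ((a : ℚ) / b) := by
  refine ⟨Multiset.replicate a b, ?_, ?_, ?_⟩
  · intro n hn
    rw [Multiset.eq_of_mem_replicate hn]
    exact hb
  · rw [Multiset.card_replicate]
  · rw [Multiset.map_replicate, Multiset.sum_replicate, nsmul_eq_mul, mul_one_div]

theorem exists_of_isUF {a b k : ℕ} (ha : 1 ≤ a) (hab : a < b) (h : IsUF k ((a : ℚ) / b)) :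
    ∃ s : Finset ℕ, 1 ≤ s.card ∧ s.card ≤ k ∧ IsExpansion a b s := by
  have hb : (0 : ℚ) < b := by
    have : 0 < b := by omega
    exact_mod_cast this
  have ha' : (0 : ℚ) < a := by exact_mod_cast ha
  have hlt : (a : ℚ) / b < 1 := by
    rw [div_lt_one hb]; exact_mod_cast hab
  obtain ⟨s, hs1, hs2, hs3⟩ := IsUF.exists_finset hlt h
  refine ⟨s, ?_, hs1, hs2, hs3⟩
  rcases Nat.eq_zero_or_pos s.card with h0 | h0
  · exfalso
    rw [Finset.card_eq_zero] at h0
    subst h0
    rw [Finset.sum_empty] at hs3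
    have : 0 < (a : ℚ) / b := div_pos ha' hb
    linarith only [hs3, this]
  · exact h0

theorem numTerms_le {a b k : ℕ} (ha : 1 ≤ a) (hab : a < b) (h : IsUF k ((a : ℚ) / b)) :
    numTerms a b ≤ k := by
  obtain ⟨s, h1, h2, h3⟩ := exists_of_isUF ha hab h
  exact (Nat.sInf_le ⟨h1, s, rfl, h3⟩ : numTerms a b ≤ s.card).trans h2

theorem numTerms_spec {a b : ℕ} (ha : 1 ≤ a) (hab : a < b) :
    1 ≤ numTerms a b ∧ ∃ s : Finset ℕ, s.card = numTerms a b ∧ IsExpansion a b s := by
  obtain ⟨s, h1, -, h3⟩ := exists_of_isUF ha hab (isUF_self a b (by omega))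
  exact Nat.sInf_mem (s := {k : ℕ | 1 ≤ k ∧ ∃ s : Finset ℕ, s.card = k ∧ IsExpansion a b s})
    ⟨s.card, h1, s, rfl, h3⟩

theorem aux_pow (k : ℕ) : 2 * k + 3 ≤ 2 ^ (k + 2) := by
  induction k with
  | zero => norm_num
  | succ k ih => rw [pow_succ]; omega

/-- `N(b-1,b) ≫ log log b`. -/
theorem loglog_le {b : ℕ} (hb : 3 ≤ b) :
    Real.log (Real.log b) ≤ 5 * (numTerms (b - 1) b : ℝ) := by
  obtain ⟨hk1, s, hsk, hs2, hs3⟩ := numTerms_spec (a := b - 1) (b := b) (by omega) (by omega)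
  set k := numTerms (b - 1) b with hk
  have hb0 : (0 : ℚ) < b := by
    have : 0 < b := by omega
    exact_mod_cast this
  have hcast : ((b - 1 : ℕ) : ℚ) = b - 1 := by
    rw [Nat.cast_sub (by omega), Nat.cast_one]
  have hone : 1 - ∑ n ∈ s, (1 : ℚ) / n = 1 / b := by
    rw [hs3, hcast]; field_simp; ring
  have hlt : ∑ n ∈ s, (1 : ℚ) / n < 1 := by
    have : (0 : ℚ) < 1 / b := by positivity
    linarith only [hone, this]
  have h := lower_bound k s hsk hs2 hlt
  rw [hone] at h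
  have hq : (b : ℚ) ≤ 2 * (2 * (k + 1)) ^ (2 ^ (k + 1)) := by
    rwa [one_div_le_one_div (by positivity) hb0] at h
  have hn : b ≤ 2 * (2 * (k + 1)) ^ (2 ^ (k + 1)) := by exact_mod_cast hq
  have hr : (b : ℝ) ≤ 2 * (2 * (k + 1)) ^ (2 ^ (k + 1)) := by exact_mod_cast hn
  have hbr : (3 : ℝ) ≤ b := by exact_mod_cast hb
  have hlogb : Real.log b ≤ 2 ^ (5 * k) := by
    have h1 : Real.log b ≤ Real.log (2 * (2 * ((k : ℝ) + 1)) ^ (2 ^ (k + 1))) :=
      Real.log_le_log (by linarith only [hbr]) hr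
    have h2 : Real.log (2 * (2 * ((k : ℝ) + 1)) ^ (2 ^ (k + 1))) =
        Real.log 2 + (2 ^ (k + 1) : ℕ) * Real.log (2 * ((k : ℝ) + 1)) := by
      rw [Real.log_mul (by norm_num) (by positivity), Real.log_pow]
    have h3 : Real.log (2 * ((k : ℝ) + 1)) ≤ 2 * ((k : ℝ) + 1) := by
      have := Real.log_le_sub_one_of_pos (x := 2 * ((k : ℝ) + 1)) (by positivity)
      linarith only [this]
    have h4 : Real.log 2 ≤ 1 := by
      have := Real.log_le_sub_one_of_pos (x := 2) (by norm_num)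
      linarith only [this]
    have h5 : (1 : ℝ) ≤ 2 ^ (k + 1) := one_le_pow₀ (by norm_num)
    have h6 : (2 * (k : ℝ) + 3) ≤ 2 ^ (k + 2) := by exact_mod_cast aux_pow k
    have h7 : (2 : ℝ) ^ (k + 1) * 2 ^ (k + 2) ≤ 2 ^ (5 * k) := by
      rw [← pow_add]
      exact pow_le_pow_right₀ (by norm_num) (by omega)
    calc Real.log b ≤ Real.log 2 + (2 ^ (k + 1) : ℕ) * Real.log (2 * ((k : ℝ) + 1)) :=
          h1.trans h2.le
      _ ≤ 2 ^ (k + 1) * 1 + 2 ^ (k + 1) * (2 * ((k : ℝ) + 1)) := by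
          push_cast
          have := mul_le_mul_of_nonneg_left h3 (by positivity : (0 : ℝ) ≤ 2 ^ (k + 1))
          linarith only [h4, h5, this]
      _ = 2 ^ (k + 1) * (2 * (k : ℝ) + 3) := by ring
      _ ≤ 2 ^ (k + 1) * 2 ^ (k + 2) := by (clear * - h6; gcongr)
      _ ≤ 2 ^ (5 * k) := h7
  have hlogpos : 0 < Real.log b := Real.log_pos (by linarith only [hbr])
  calc Real.log (Real.log b) ≤ Real.log (2 ^ (5 * k)) := Real.log_le_log hlogpos hlogb
    _ = (5 * k : ℕ) * Real.log 2 := by rw [Real.log_pow]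
    _ ≤ (5 * k : ℕ) * 1 := by
        gcongr
        have := Real.log_le_sub_one_of_pos (x := 2) (by norm_num)
        linarith only [this]
    _ = 5 * (k : ℝ) := by push_cast; ring

theorem le_maxTerms {a b : ℕ} (ha : 1 ≤ a) (hab : a < b) : numTerms a b ≤ maxTerms b :=
  Finset.le_sup (f := fun a => numTerms a b) (Finset.mem_Ico.2 ⟨ha, hab⟩)

theorem tendsto_loglog :
    Tendsto (fun b : ℕ => Real.log (Real.log b)) atTop atTop :=
  Real.tendsto_log_atTop.comp (Real.tendsto_log_atTop.comp tendsto_natCast_atTop_atTop)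

theorem main_of_upper
    (H : ∃ C : ℝ, ∃ b₀ : ℕ, ∀ b ≥ b₀, ∀ a : ℕ, a < b →
      ∃ k : ℕ, (k : ℝ) ≤ C * Real.log (Real.log b) ∧ IsUF k ((a : ℚ) / b)) :
    (∀ a b : ℕ, 1 ≤ a → a < b → ∃ s : Finset ℕ, IsExpansion a b s) ∧
    (fun b : ℕ => (maxTerms b : ℝ)) =Θ[atTop] (fun b : ℕ => Real.log (Real.log b)) := by
  refine ⟨?_, ?_, ?_⟩
  · intro a b ha hab
    obtain ⟨s, -, -, h⟩ := exists_of_isUF ha hab (isUF_self a b (by omega))
    exact ⟨s, h⟩
  · obtain ⟨C, b₀, H⟩ := H
    apply IsBigO.of_bound C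
    filter_upwards [eventually_ge_atTop b₀, eventually_ge_atTop 1,
      tendsto_loglog.eventually_ge_atTop 0] with b hb hb1 hll
    rw [Real.norm_of_nonneg (Nat.cast_nonneg _), Real.norm_of_nonneg hll]
    obtain ⟨k0, hk0, -⟩ := H b hb 0 (by omega)
    have hC : 0 ≤ C * Real.log (Real.log b) := (Nat.cast_nonneg k0).trans hk0
    have : maxTerms b ≤ ⌊C * Real.log (Real.log b)⌋₊ := by
      apply Finset.sup_le
      intro a ha
      rw [Finset.mem_Ico] at ha
      obtain ⟨k, hk, hUF⟩ := H b hb a ha.2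
      exact (numTerms_le ha.1 ha.2 hUF).trans (Nat.le_floor hk)
    exact (Nat.cast_le.2 this).trans (Nat.floor_le hC)
  · apply IsBigO.of_bound 5
    filter_upwards [eventually_ge_atTop 3, tendsto_loglog.eventually_ge_atTop 0] with b hb hll
    rw [Real.norm_of_nonneg (Nat.cast_nonneg _), Real.norm_of_nonneg hll]
    refine (loglog_le hb).trans ?_
    have := le_maxTerms (a := b - 1) (b := b) (by omega) (by omega)
    have : (numTerms (b - 1) b : ℝ) ≤ maxTerms b := by exact_mod_cast this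
    linarith only [this]

end Vale.Agent.P012
end
end

section

section

namespace Vale.Agent.P012

open Finset

theorem IsUF.mono {k l : ℕ} {x : ℚ} (h : IsUF k x) (hkl : k ≤ l) : IsUF l x := by
  obtain ⟨m, h1, h2, h3⟩ := h
  exact ⟨m, h1, h2.trans hkl, h3⟩

theorem isUF_zero (k : ℕ) : IsUF k 0 :=
  ⟨0, by simp, by simp, by simp⟩

theorem IsUF.add {k l : ℕ} {x y : ℚ} (hx : IsUF k x) (hy : IsUF l y) :
    IsUF (k + l) (x + y) := by
  obtain ⟨m, h1, h2, h3⟩ := hx
  obtain ⟨m', h1', h2', h3'⟩ := hy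
  refine ⟨m + m', ?_, ?_, ?_⟩
  · intro n hn
    rcases Multiset.mem_add.1 hn with h | h
    · exact h1 n h
    · exact h1' n h
  · rw [Multiset.card_add]; omega
  · rw [Multiset.map_add, Multiset.sum_add, h3, h3']

theorem isUF_one_div {n : ℕ} (hn : 0 < n) : IsUF 1 ((1 : ℚ) / n) :=
  ⟨{n}, by simpa using hn, by simp, by simp⟩

theorem IsUF.div {k : ℕ} {x : ℚ} (hx : IsUF k x) {t : ℕ} (ht : 0 < t) :
    IsUF k (x / t) := by
  obtain ⟨m, h1, h2, h3⟩ := hx
  refine ⟨m.map (fun n => n * t), ?_, ?_, ?_⟩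
  · intro n hn
    obtain ⟨a, ha, rfl⟩ := Multiset.mem_map.1 hn
    exact Nat.mul_pos (h1 a ha) ht
  · rwa [Multiset.card_map]
  · rw [Multiset.map_map, ← h3, ← Multiset.sum_map_div]
    congr 1
    apply Multiset.map_congr rfl
    intro n _
    simp only [Function.comp]
    push_cast
    rw [div_div]

theorem isUF_sum {ι : Type*} (s : Finset ι) (f : ι → ℕ) (hf : ∀ i ∈ s, 0 < f i) :
    IsUF s.card (∑ i ∈ s, (1 : ℚ) / f i) := by
  classical
  induction s using Finset.induction_on with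
  | empty => simpa using isUF_zero 0
  | insert a s ha ih =>
    rw [Finset.sum_insert ha, Finset.card_insert_of_notMem ha, add_comm s.card 1]
    exact (isUF_one_div (hf a (Finset.mem_insert_self a s))).add
      (ih (fun i hi => hf i (Finset.mem_insert_of_mem hi)))

end Vale.Agent.P012
end
end

section

section

namespace Vale.Agent.P012

open Finset

section
variable {m N₂ : ℕ} (G : Finset ℕ)

/-- two good digits -/
theorem two_digits (hm : 2 ≤ m)
    (hG : ∀ R ∈ G, IsUF 12 ((R : ℚ) / N₂))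
    (hd : ∀ y q : ℕ, 2 ^ (31 * m) ≤ q → y + q ≤ 2 ^ (32 * m) →
        4 * ((Finset.Ioc y (y + q)).filter (fun R => R ∉ G)).card ≤ q)
    (q : ℕ) (h1 : 2 ^ (32 * m - 1) ≤ q) (h2 : q ≤ 2 ^ (32 * m)) :
    IsUF 24 ((q : ℚ) / N₂) := by
  have hH : 2 ^ (31 * m) < q := by
    refine lt_of_lt_of_le ?_ h1
    exact Nat.pow_lt_pow_right (by norm_num) (by omega)
  have hHp : 0 < 2 ^ (31 * m) := by positivity
  have hq0 : 0 < q := by omega
  -- number of bad R in (0, q-1]
  have hbad := hd 0 (q - 1) (by omega) (by omega)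
  rw [Nat.zero_add] at hbad
  set B := (Finset.Ioc 0 (q - 1)).filter (fun R => R ∉ G) with hB
  set B' := (Finset.Ioc 0 (q - 1)).filter (fun R => q - R ∉ G) with hB'
  have hcard : B'.card ≤ B.card := by
    apply Finset.card_le_card_of_injOn (fun R => q - R)
    · intro R hR
      simp only [hB', Finset.coe_filter, Finset.mem_Ioc, Set.mem_ofPred_eq] at hR
      simp only [hB, Finset.coe_filter, Finset.mem_Ioc, Set.mem_ofPred_eq]
      refine ⟨by omega, hR.2⟩
    · intro R hR R' hR' heq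
      simp only [hB', Finset.coe_filter, Finset.mem_Ioc, Set.mem_ofPred_eq] at hR hR'
      simp only at heq
      omega
  have : ∃ R ∈ Finset.Ioc 0 (q - 1), R ∉ B ∪ B' := by
    by_contra hcon
    push Not at hcon
    have hsub : Finset.Ioc 0 (q - 1) ⊆ B ∪ B' := fun R hR => hcon R hR
    have h3 := Finset.card_le_card hsub
    have h4 := Finset.card_union_le B B'
    rw [Nat.card_Ioc, Nat.sub_zero] at h3
    have h5 : 4 ≤ 2 ^ (31 * m) := by
      calc 4 = 2 ^ 2 := by norm_num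
        _ ≤ 2 ^ (31 * m) := Nat.pow_le_pow_right (by norm_num) (by omega)
    omega
  obtain ⟨R, hR, hR2⟩ := this
  rw [Finset.mem_union, not_or] at hR2
  have hRG : R ∈ G := by
    by_contra hcon
    exact hR2.1 (Finset.mem_filter.2 ⟨hR, hcon⟩)
  have hRG' : q - R ∈ G := by
    by_contra hcon
    exact hR2.2 (Finset.mem_filter.2 ⟨hR, hcon⟩)
  rw [Finset.mem_Ioc] at hR
  have h5 := (hG R hRG).add (hG (q - R) hRG')
  have h6 : (R : ℚ) / N₂ + ((q - R : ℕ) : ℚ) / N₂ = (q : ℚ) / N₂ := by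
    rw [Nat.cast_sub (by omega)]; ring
  rw [h6] at h5
  exact h5

/-- one digit step -/
theorem one_digit (hm : 2 ≤ m)
    (hd : ∀ y q : ℕ, 2 ^ (31 * m) ≤ q → y + q ≤ 2 ^ (32 * m) →
        4 * ((Finset.Ioc y (y + q)).filter (fun R => R ∉ G)).card ≤ q)
    (s : ℕ) (hs : 2 ^ (32 * m - 1) ≤ s) :
    ∃ R ∈ G, ∃ u : ℕ, 2 ^ u ≤ s ∧ R * 2 ^ u ≤ s ∧ (s - R * 2 ^ u) * 2 ^ (m - 1) ≤ s := by
  have hs0 : s ≠ 0 := by
    have : 0 < 2 ^ (32 * m - 1) := by positivity
    omega
  set u := Nat.log 2 s - (32 * m - 1) with hu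
  have hlog : 32 * m - 1 ≤ Nat.log 2 s := by
    apply Nat.le_log_of_pow_le (by norm_num) hs
  have h1 : 2 ^ (Nat.log 2 s) ≤ s := Nat.pow_log_le_self 2 hs0
  have h2 : s < 2 ^ (Nat.log 2 s + 1) := Nat.lt_pow_succ_log_self (by norm_num) s
  have hlog2 : Nat.log 2 s = (32 * m - 1) + u := by omega
  rw [hlog2] at h1 h2
  set y := s / 2 ^ u with hy
  have hupos : 0 < 2 ^ u := by positivity
  have hy1 : 2 ^ (32 * m - 1) ≤ y := by
    rw [hy, Nat.le_div_iff_mul_le hupos, ← pow_add]; exact h1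
  have hy2 : y < 2 ^ (32 * m) := by
    rw [hy, Nat.div_lt_iff_lt_mul hupos, ← pow_add]
    convert h2 using 2; omega
  have hH : 2 ^ (31 * m) ≤ y := by
    refine le_trans ?_ hy1
    exact Nat.pow_le_pow_right (by norm_num) (by omega)
  have hbad := hd (y - 2 ^ (31 * m)) (2 ^ (31 * m)) le_rfl (by omega)
  have hsub : y - 2 ^ (31 * m) + 2 ^ (31 * m) = y := by omega
  rw [hsub] at hbad
  have hHpos : 0 < 2 ^ (31 * m) := by positivity
  have : ∃ R ∈ Finset.Ioc (y - 2 ^ (31 * m)) y, R ∈ G := by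
    by_contra hcon
    push Not at hcon
    have : (Finset.Ioc (y - 2 ^ (31 * m)) y).filter (fun R => R ∉ G)
        = Finset.Ioc (y - 2 ^ (31 * m)) y := by
      apply Finset.filter_true_of_mem
      exact hcon
    rw [this, Nat.card_Ioc] at hbad
    omega
  obtain ⟨R, hR, hRG⟩ := this
  rw [Finset.mem_Ioc] at hR
  refine ⟨R, hRG, u, ?_, ?_, ?_⟩
  · calc 2 ^ u ≤ 2 ^ (32 * m - 1 + u) := Nat.pow_le_pow_right (by norm_num) (by omega)
      _ ≤ s := h1
  · calc R * 2 ^ u ≤ y * 2 ^ u := Nat.mul_le_mul_right _ hR.2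
      _ ≤ s := Nat.div_mul_le_self s _
  · have h3 : s < (y + 1) * 2 ^ u := by
      have := Nat.lt_mul_div_succ s hupos
      rw [mul_comm]; exact this
    have h4 : (y + 1) ≤ R + 2 ^ (31 * m) := by omega
    have h5 : (y + 1) * 2 ^ u ≤ R * 2 ^ u + 2 ^ (31 * m) * 2 ^ u := by
      calc (y + 1) * 2 ^ u ≤ (R + 2 ^ (31 * m)) * 2 ^ u := Nat.mul_le_mul_right _ h4
        _ = _ := by ring
    have h6 : s - R * 2 ^ u ≤ 2 ^ (31 * m) * 2 ^ u := by omega
    calc (s - R * 2 ^ u) * 2 ^ (m - 1) ≤ 2 ^ (31 * m) * 2 ^ u * 2 ^ (m - 1) :=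
          Nat.mul_le_mul_right _ h6
      _ = 2 ^ (32 * m - 1 + u) := by
          rw [← pow_add, ← pow_add]; congr 1; (clear * - hm hH hsub; omega)
      _ ≤ s := h1

theorem digits_aux (hm : 2 ≤ m) (hN : 0 < N₂)
    (hG : ∀ R ∈ G, IsUF 12 ((R : ℚ) / N₂))
    (hd : ∀ y q : ℕ, 2 ^ (31 * m) ≤ q → y + q ≤ 2 ^ (32 * m) →
        4 * ((Finset.Ioc y (y + q)).filter (fun R => R ∉ G)).card ≤ q)
    (w j : ℕ) : ∀ s : ℕ, s ≤ 2 ^ w → s ≤ 2 ^ ((m - 1) * j) * 2 ^ (32 * m - 1) →
    IsUF (24 + 12 * j) (((s + 2 ^ (32 * m - 1) : ℕ) : ℚ) / (2 ^ w * N₂)) := by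
  induction j with
  | zero =>
    intro s _ hs
    have h1 := two_digits G hm hG hd (s + 2 ^ (32 * m - 1)) (by omega) (by
      have : 2 ^ (32 * m) = 2 ^ (32 * m - 1) + 2 ^ (32 * m - 1) := by
        rw [← two_mul, ← pow_succ']; congr 1; omega
      simp only [mul_zero, pow_zero, one_mul] at hs
      omega)
    have h2 := h1.div (t := 2 ^ w) (by positivity)
    have h3 : ((s + 2 ^ (32 * m - 1) : ℕ) : ℚ) / N₂ / ((2 ^ w : ℕ) : ℚ)
        = ((s + 2 ^ (32 * m - 1) : ℕ) : ℚ) / (2 ^ w * N₂) := by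
      push_cast
      rw [div_div, mul_comm (N₂ : ℚ)]
    rw [h3] at h2
    exact h2
  | succ j ih =>
    intro s hsw hs
    by_cases hsmall : s ≤ 2 ^ (32 * m - 1)
    · refine (ih s hsw ?_).mono (by omega)
      calc s ≤ 2 ^ (32 * m - 1) := hsmall
        _ ≤ 2 ^ ((m - 1) * j) * 2 ^ (32 * m - 1) := Nat.le_mul_of_pos_left _ (by positivity)
    · push Not at hsmall
      obtain ⟨R, hRG, u, hu1, hu2, hu3⟩ := one_digit G hm hd s hsmall.le
      have huw : u ≤ w := by
        have : 2 ^ u ≤ 2 ^ w := hu1.trans hsw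
        exact (Nat.pow_le_pow_iff_right (by norm_num)).1 this
      have hs' : s - R * 2 ^ u ≤ 2 ^ ((m - 1) * j) * 2 ^ (32 * m - 1) := by
        have h1 : (s - R * 2 ^ u) * 2 ^ (m - 1)
            ≤ (2 ^ ((m - 1) * j) * 2 ^ (32 * m - 1)) * 2 ^ (m - 1) := by
          calc (s - R * 2 ^ u) * 2 ^ (m - 1) ≤ s := hu3
            _ ≤ 2 ^ ((m - 1) * (j + 1)) * 2 ^ (32 * m - 1) := hs
            _ = _ := by rw [mul_add, pow_add]; ring
        exact Nat.le_of_mul_le_mul_right h1 (by positivity)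
      have h1 := ih (s - R * 2 ^ u) (by omega) hs'
      have h2 := (hG R hRG).div (t := 2 ^ (w - u)) (by positivity)
      have h3 := h1.add h2
      have h4 : (((s - R * 2 ^ u) + 2 ^ (32 * m - 1) : ℕ) : ℚ) / (2 ^ w * N₂)
          + (R : ℚ) / N₂ / ((2 ^ (w - u) : ℕ) : ℚ)
          = ((s + 2 ^ (32 * m - 1) : ℕ) : ℚ) / (2 ^ w * N₂) := by
        have hw : (2 : ℚ) ^ w = 2 ^ (w - u) * 2 ^ u := by
          rw [← pow_add]; congr 1; omega
        have hN' : (N₂ : ℚ) ≠ 0 := by positivity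
        rw [Nat.cast_add, Nat.cast_sub hu2]
        push_cast
        rw [hw]
        field_simp
        ring
      rw [h4] at h3
      exact h3.mono (by omega)

theorem digits (hm : 2 ≤ m) (hN : 0 < N₂)
    (hG : ∀ R ∈ G, IsUF 12 ((R : ℚ) / N₂))
    (hd : ∀ y q : ℕ, 2 ^ (31 * m) ≤ q → y + q ≤ 2 ^ (32 * m) →
        4 * ((Finset.Ioc y (y + q)).filter (fun R => R ∉ G)).card ≤ q)
    (w q : ℕ) (hq : q ≤ 2 ^ w) :
    IsUF (12 * (w / (m - 1) + 3)) ((q : ℚ) / (2 ^ w * N₂)) := by
  rcases Nat.eq_zero_or_pos q with h0 | hq0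
  · subst h0; simpa only [CharP.cast_eq_zero, zero_div] using isUF_zero _
  by_cases hbig : 2 ^ (32 * m - 1) ≤ q
  · have hm1 : 0 < m - 1 := by omega
    have h1 := digits_aux G hm hN hG hd w (w / (m - 1) + 1) (q - 2 ^ (32 * m - 1))
      ((Nat.sub_le _ _).trans hq) (by
      calc q - 2 ^ (32 * m - 1) ≤ q := Nat.sub_le _ _
        _ ≤ 2 ^ w := hq
        _ ≤ 2 ^ ((m - 1) * (w / (m - 1) + 1)) := by
            apply Nat.pow_le_pow_right (by norm_num)
            exact (Nat.lt_mul_div_succ w hm1).le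
        _ ≤ 2 ^ ((m - 1) * (w / (m - 1) + 1)) * 2 ^ (32 * m - 1) :=
            Nat.le_mul_of_pos_right _ (by positivity))
    have h2 : q - 2 ^ (32 * m - 1) + 2 ^ (32 * m - 1) = q := by omega
    rw [h2] at h1
    exact h1.mono (by omega)
  · push Not at hbig
    -- scale
    set t := 32 * m - 1 - Nat.log 2 q with ht
    have hlt : Nat.log 2 q < 32 * m - 1 := by
      exact Nat.log_lt_of_lt_pow (by omega) hbig
    have h1 : 2 ^ (Nat.log 2 q) ≤ q := Nat.pow_log_le_self 2 (by omega)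
    have h2 : q < 2 ^ (Nat.log 2 q + 1) := Nat.lt_pow_succ_log_self (by norm_num) q
    have h3 : 2 ^ (32 * m - 1) ≤ q * 2 ^ t := by
      calc 2 ^ (32 * m - 1) = 2 ^ (Nat.log 2 q) * 2 ^ t := by
            rw [← pow_add]; congr 1; omega
        _ ≤ q * 2 ^ t := Nat.mul_le_mul_right _ h1
    have h4 : q * 2 ^ t ≤ 2 ^ (32 * m) := by
      calc q * 2 ^ t ≤ 2 ^ (Nat.log 2 q + 1) * 2 ^ t := Nat.mul_le_mul_right _ h2.le
        _ = 2 ^ (32 * m) := by rw [← pow_add]; congr 1; omega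
    have h5 := (two_digits G hm hG hd _ h3 h4).div (t := 2 ^ (w + t)) (by positivity)
    have h6 : ((q * 2 ^ t : ℕ) : ℚ) / N₂ / ((2 ^ (w + t) : ℕ) : ℚ) = (q : ℚ) / (2 ^ w * N₂) := by
      have hN' : (N₂ : ℚ) ≠ 0 := by positivity
      push_cast
      rw [pow_add]
      field_simp
    rw [h6] at h5
    exact h5.mono (by
      generalize w / (m - 1) = z
      omega)

end

end Vale.Agent.P012
end
end

section

section

namespace Vale.Agent.P012

open Finset


theorem greedy (j a b : ℕ) (hb : 0 < b) (hab : a < b) :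
    ∃ a' b' : ℕ, 0 < b' ∧ b' ≤ b * 2 ^ (2 * 2 ^ j) ∧ a' * 2 ^ (2 ^ j) ≤ b' ∧
      IsUF (j + 1) ((a : ℚ) / b - (a' : ℚ) / b') := by
  -- stronger induction: b' * 2 ≤ b * 2 ^ (2 * 2 ^ j)
  suffices H : ∃ a' b' : ℕ, 0 < b' ∧ b' * 2 ≤ b * 2 ^ (2 * 2 ^ j) ∧ a' * 2 ^ (2 ^ j) ≤ b' ∧
      IsUF (j + 1) ((a : ℚ) / b - (a' : ℚ) / b') by
    obtain ⟨a', b', h1, h2, h3, h4⟩ := H
    exact ⟨a', b', h1, by omega, h3, h4⟩
  induction j with
  | zero =>
    by_cases h : a * 2 ≤ b
    · refine ⟨a, b, hb, ?_, ?_, ?_⟩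
      · norm_num; omega
      · simpa only [pow_zero, pow_one] using h
      · rw [sub_self]; exact isUF_zero _
    · refine ⟨2 * a - b, 2 * b, by omega, ?_, ?_, ?_⟩
      · norm_num; omega
      · norm_num; omega
      · have h2 : ((2 * a - b : ℕ) : ℚ) = 2 * a - b := by
          rw [Nat.cast_sub (by omega)]; push_cast; ring
        have hb' : (b : ℚ) ≠ 0 := by positivity
        have : (a : ℚ) / b - ((2 * a - b : ℕ) : ℚ) / ((2 * b : ℕ) : ℚ) = (1 : ℚ) / (2 : ℕ) := by
          rw [h2]; push_cast; field_simp; ring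
        rw [this]
        exact isUF_one_div (by norm_num)
  | succ j ih =>
    obtain ⟨a', b', h1, h2, h3, h4⟩ := ih
    set E := 2 ^ (2 ^ j) with hE
    have hE2 : 2 ^ (2 ^ (j + 1)) = E ^ 2 := by rw [hE, ← pow_mul, pow_succ]
    have hE4 : 2 ^ (2 * 2 ^ (j + 1)) = 2 ^ (2 * 2 ^ j) * E ^ 2 := by
      rw [hE, ← pow_mul, ← pow_add]; congr 1; ring
    have hEpos : 0 < E := by positivity
    by_cases h : a' * E ^ 2 ≤ b'
    · refine ⟨a', b', h1, ?_, ?_, h4.mono (by omega)⟩
      · rw [hE4]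
        calc b' * 2 ≤ b * 2 ^ (2 * 2 ^ j) := h2
          _ ≤ b * (2 ^ (2 * 2 ^ j) * E ^ 2) := by
            apply Nat.mul_le_mul_left
            exact Nat.le_mul_of_pos_right _ (by positivity)
      · rw [hE2]; exact h
    · push Not at h
      have ha' : 0 < a' := by
        rcases Nat.eq_zero_or_pos a' with h0 | h0
        · subst h0; simp at h
        · exact h0
      -- n = ceil (b' / a')
      set n := (b' + a' - 1) / a' with hn
      have hn1 : b' ≤ a' * n := by
        have := Nat.lt_mul_div_succ (b' + a' - 1) ha'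
        rw [← hn] at this
        have h5 : a' * (n + 1) = a' * n + a' := by ring
        omega
      have hn2 : a' * n < b' + a' := by
        have := Nat.mul_div_le (b' + a' - 1) a'
        rw [← hn] at this
        omega
      have hnpos : 0 < n := by
        rcases Nat.eq_zero_or_pos n with h0 | h0
        · rw [h0] at hn1; simp at hn1; omega
        · exact h0
      have hnE : E ≤ n := by
        by_contra hcon
        push Not at hcon
        have : a' * n < a' * E := Nat.mul_lt_mul_of_pos_left hcon ha'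
        omega
      have hnE2 : n ≤ E ^ 2 := by
        by_contra hcon
        push Not at hcon
        have : a' * (E ^ 2 + 1) ≤ a' * n := Nat.mul_le_mul_left _ hcon
        have h5 : a' * (E ^ 2 + 1) = a' * E ^ 2 + a' := by ring
        omega
      refine ⟨a' * n - b', b' * n, Nat.mul_pos h1 hnpos, ?_, ?_, ?_⟩
      · rw [hE4]
        calc b' * n * 2 = (b' * 2) * n := by ring
          _ ≤ (b * 2 ^ (2 * 2 ^ j)) * E ^ 2 := Nat.mul_le_mul h2 hnE2
          _ = b * (2 ^ (2 * 2 ^ j) * E ^ 2) := by ring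
      · rw [hE2]
        have h6 : a' * n - b' ≤ a' := by omega
        calc (a' * n - b') * E ^ 2 ≤ a' * E ^ 2 := Nat.mul_le_mul_right _ h6
          _ = (a' * E) * E := by ring
          _ ≤ b' * n := Nat.mul_le_mul h3 hnE
      · have h7 : ((a' * n - b' : ℕ) : ℚ) = a' * n - b' := by
          rw [Nat.cast_sub hn1]; push_cast; ring
        have hb' : (b' : ℚ) ≠ 0 := by positivity
        have hn' : (n : ℚ) ≠ 0 := by positivity
        have : (a : ℚ) / b - ((a' * n - b' : ℕ) : ℚ) / ((b' * n : ℕ) : ℚ)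
            = ((a : ℚ) / b - (a' : ℚ) / b') + (1 : ℚ) / n := by
          rw [h7]; push_cast; field_simp; ring
        rw [this]
        exact h4.add (isUF_one_div hnpos)

end Vale.Agent.P012
end
end

section

section

namespace Vale.Agent.P012

open Finset Filter

/-- Statement of the key lemma (used as an interface, proved elsewhere). -/
def KeyStatement : Prop :=
    ∃ m₀ : ℕ, ∀ m ≥ m₀, ∃ N₂ : ℕ, 0 < N₂ ∧ N₂ ≤ m ^ (7000 * m) ∧ ∃ G : Finset ℕ,
      (∀ R ∈ G, IsUF 12 ((R : ℚ) / N₂)) ∧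
      ∀ y q : ℕ, 2 ^ (31 * m) ≤ q → y + q ≤ 2 ^ (32 * m) →
        4 * ((Finset.Ioc y (y + q)).filter (fun R => R ∉ G)).card ≤ q

/-- Combinatorial upper bound in terms of integer logarithms. -/
theorem upper_nat (hkey : KeyStatement) : ∃ b₀ : ℕ, ∀ b ≥ b₀, ∀ a : ℕ, a < b →
    IsUF (1400000 * (Nat.log 2 (Nat.log 2 b + 1) + 1)) ((a : ℚ) / b) := by
  obtain ⟨m₀, hm₀⟩ := hkey
  refine ⟨2 ^ (m₀ + 2), fun b hb a hab => ?_⟩
  have hb0 : b ≠ 0 := by
    have : 0 < 2 ^ (m₀ + 2) := by positivity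
    omega
  obtain ⟨m, hm⟩ : ∃ m, m = Nat.log 2 b + 1 := ⟨_, rfl⟩
  have hmlog : m₀ + 2 ≤ Nat.log 2 b := Nat.le_log_of_pow_le (by norm_num) hb
  have hm2 : 2 ≤ m := by omega
  have hbm : b < 2 ^ m := by rw [hm]; exact Nat.lt_pow_succ_log_self (by norm_num) b
  rw [← hm]
  obtain ⟨N₂, hN0, hN, G, hG, hd⟩ := hm₀ m (by omega)
  obtain ⟨L, hL⟩ : ∃ L, L = Nat.log 2 m + 1 := ⟨_, rfl⟩
  have hmL : m < 2 ^ L := by rw [hL]; exact Nat.lt_pow_succ_log_self (by norm_num) m
  rw [← hL]
  have hLm : L ≤ m := by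
    have := Nat.log_lt_self 2 (x := m) (by omega)
    omega
  obtain ⟨A, hA⟩ : ∃ A, A = 7000 * m * L := ⟨_, rfl⟩
  have hNA : N₂ ≤ 2 ^ A := by
    calc N₂ ≤ m ^ (7000 * m) := hN
      _ ≤ (2 ^ L) ^ (7000 * m) := Nat.pow_le_pow_left hmL.le _
      _ = 2 ^ A := by rw [← pow_mul, hA]; congr 1; ring
  have hA0 : A ≠ 0 := by
    rw [hA]
    exact Nat.mul_ne_zero (Nat.mul_ne_zero (by norm_num) (by omega)) (by omega)
  obtain ⟨j, hj⟩ : ∃ j, j = Nat.log 2 A + 1 := ⟨_, rfl⟩
  have hj1 : A < 2 ^ j := by rw [hj]; exact Nat.lt_pow_succ_log_self (by norm_num) A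
  have hj2 : 2 ^ j ≤ 2 * A := by
    rw [hj, pow_succ, mul_comm]
    exact Nat.mul_le_mul_left _ (Nat.pow_log_le_self 2 hA0)
  obtain ⟨a', b', hb', hb'2, ha', hUF⟩ := greedy j a b (by omega) hab
  obtain ⟨w, hw⟩ : ∃ w, w = m + 4 * A := ⟨_, rfl⟩
  have hb'w : b' ≤ 2 ^ w := by
    calc b' ≤ b * 2 ^ (2 * 2 ^ j) := hb'2
      _ ≤ 2 ^ m * 2 ^ (4 * A) := by
          apply Nat.mul_le_mul hbm.le
          apply Nat.pow_le_pow_right (by norm_num)
          omega
      _ = 2 ^ w := by rw [← pow_add, hw]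
  set N := 2 ^ w * N₂ with hNdef
  have hNpos : 0 < N := by positivity
  set q := a' * N / b' with hq
  set r := a' * N % b' with hr
  have hqr : b' * q + r = a' * N := Nat.div_add_mod _ _
  have hrw : r ≤ 2 ^ w := (Nat.mod_lt _ hb').le.trans hb'w
  have hqw : q ≤ 2 ^ w := by
    rw [hq]
    apply Nat.div_le_of_le_mul
    have h1 : a' * N₂ ≤ b' := by
      calc a' * N₂ ≤ a' * 2 ^ (2 ^ j) := by
            apply Nat.mul_le_mul_left
            exact hNA.trans (Nat.pow_le_pow_right (by norm_num) hj1.le)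
        _ ≤ b' := ha'
    calc a' * N = (a' * N₂) * 2 ^ w := by rw [hNdef]; ring
      _ ≤ b' * 2 ^ w := Nat.mul_le_mul_right _ h1
  have h1 := digits G hm2 hN0 hG hd w q hqw
  have h2 := (digits G hm2 hN0 hG hd w r hrw).div hb'
  have h3 := (hUF.add h1).add h2
  have h4 : (a : ℚ) / b - (a' : ℚ) / b' + (q : ℚ) / (2 ^ w * N₂)
      + (r : ℚ) / (2 ^ w * N₂) / b' = (a : ℚ) / b := by
    have hb'Q : (b' : ℚ) ≠ 0 := by positivity
    have hbQ : (b : ℚ) ≠ 0 := by positivity
    have hN' : (N₂ : ℚ) ≠ 0 := by positivity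
    have h5 : (b' : ℚ) * q + r = a' * (2 ^ w * N₂) := by
      have := congrArg (fun n : ℕ => (n : ℚ)) hqr
      simp only [hNdef] at this
      push_cast at this
      exact this
    have h6 : (a' : ℚ) / b' = (q : ℚ) / (2 ^ w * N₂) + (r : ℚ) / (2 ^ w * N₂) / b' := by
      field_simp
      linarith only [h5]
    rw [h6]; ring
  rw [h4] at h3
  refine h3.mono ?_
  -- numerics
  have hwm : w / (m - 1) ≤ 2 * 28001 * L := by
    apply Nat.div_le_of_le_mul
    have h7 : m ≤ 2 * (m - 1) := by (clear * - hm hm2 hA hw; omega)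
    have h8 : 1 ≤ L := by omega
    calc w = m * 1 + 28000 * m * L := by rw [hw, hA]; ring
      _ ≤ m * L + 28000 * m * L := by
          apply Nat.add_le_add_right; exact Nat.mul_le_mul_left _ h8
      _ = m * (28001 * L) := by ring
      _ ≤ (2 * (m - 1)) * (28001 * L) := Nat.mul_le_mul_right _ h7
      _ = (m - 1) * (2 * 28001 * L) := by ring
  have hjL : j ≤ 14 + 2 * L := by
    have h9 : A < 2 ^ (13 + 2 * L) := by
      calc A = 7000 * (m * L) := by rw [hA]; ring
        _ ≤ 2 ^ 13 * (m * m) := by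
            apply Nat.mul_le_mul (by norm_num)
            exact Nat.mul_le_mul_left _ hLm
        _ < 2 ^ 13 * (2 ^ L * 2 ^ L) := by
            apply Nat.mul_lt_mul_of_pos_left _ (by norm_num)
            exact Nat.mul_lt_mul'' hmL hmL
        _ = 2 ^ (13 + 2 * L) := by rw [← pow_add, ← pow_add]; congr 1; ring
    have h10 : Nat.log 2 A < 13 + 2 * L := Nat.log_lt_of_lt_pow hA0 h9
    omega
  have h8 : 1 ≤ L := by omega
  generalize w / (m - 1) = z at *
  (clear * - hL hj hjL hwm; omega)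

end Vale.Agent.P012
end
end

section

section

namespace Vale.Agent.P012

open Filter Asymptotics

theorem natLog_le_log {x : ℕ} (hx : x ≠ 0) : (Nat.log 2 x : ℝ) ≤ 2 * Real.log x := by
  have h1 : 2 ^ Nat.log 2 x ≤ x := Nat.pow_log_le_self 2 hx
  have h2 : ((2 : ℝ) ^ Nat.log 2 x) ≤ x := by exact_mod_cast h1
  have h3 : Real.log ((2 : ℝ) ^ Nat.log 2 x) ≤ Real.log x := Real.log_le_log (by positivity) h2
  rw [Real.log_pow] at h3
  have h4 := Real.log_two_gt_d9
  nlinarith only [h3, h4]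

theorem upper_of_key (hkey : KeyStatement) : ∃ C : ℝ, ∃ b₀ : ℕ, ∀ b ≥ b₀, ∀ a : ℕ, a < b →
    ∃ k : ℕ, (k : ℝ) ≤ C * Real.log (Real.log b) ∧ IsUF k ((a : ℚ) / b) := by
  obtain ⟨b₀, hb₀⟩ := upper_nat hkey
  obtain ⟨b₁, hb₁⟩ := (eventually_atTop.1 (tendsto_loglog.eventually_ge_atTop 1))
  refine ⟨1400000 * 7, max (max b₀ b₁) 3, fun b hb a hab => ⟨_, ?_, hb₀ b (by omega) a hab⟩⟩
  have hll := hb₁ b (by omega)
  have hb3 : 3 ≤ b := by omega
  have hb3' : (3 : ℝ) ≤ b := by exact_mod_cast hb3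
  have hlogpos : 0 < Real.log b := Real.log_pos (by linarith only [hb3'])
  have hlog1 : 1 ≤ Real.log b := by
    have := Real.log_le_sub_one_of_pos hlogpos
    linarith only [hll, this]
  have h1 := natLog_le_log (x := b) (by omega)
  have h2 := natLog_le_log (x := Nat.log 2 b + 1) (by omega)
  have h3 : ((Nat.log 2 b + 1 : ℕ) : ℝ) ≤ 3 * Real.log b := by push_cast; linarith only [hlog1, h1]
  have h4 : Real.log ((Nat.log 2 b + 1 : ℕ) : ℝ) ≤ Real.log 3 + Real.log (Real.log b) := by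
    rw [← Real.log_mul (by norm_num) hlogpos.ne']
    exact Real.log_le_log (by positivity) h3
  have h5 : Real.log 3 ≤ 2 := by
    have := Real.log_le_sub_one_of_pos (x := 3) (by norm_num)
    linarith only [this]
  push_cast at h2 h4 ⊢
  nlinarith only [hll, h5, h2, h4]

theorem main_of_key (hkey : KeyStatement) :
    (∀ a b : ℕ, 1 ≤ a → a < b → ∃ s : Finset ℕ, IsExpansion a b s) ∧
    (fun b : ℕ => (maxTerms b : ℝ)) =Θ[atTop] (fun b : ℕ => Real.log (Real.log b)) :=
  main_of_upper (upper_of_key hkey)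

end Vale.Agent.P012
end
end

section

section

namespace Vale.Agent.P012

open Finset

section Bilinear

theorem char_sum {ι A M : Type*} [AddCommMonoid A] [CommMonoid M] (ψ : AddChar A M)
    (s : Finset ι) (f : ι → A) : ψ (∑ i ∈ s, f i) = ∏ i ∈ s, ψ (f i) := by
  classical
  induction s using Finset.induction_on with
  | empty => simp
  | insert i s hi ih =>
    rw [Finset.sum_insert hi, Finset.prod_insert hi, AddChar.map_add_eq_mul, ih]

theorem mul_natCast_eq_iff {R : ℕ} (b : ZMod R) (a a' : ℕ) :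
    b * (a : ZMod R) = b * (a' : ZMod R) ↔ a ≡ a' [MOD addOrderOf b] := by
  rw [← nsmul_eq_nsmul_iff_modEq, nsmul_eq_mul, nsmul_eq_mul, mul_comm b, mul_comm b]

variable {R : ℕ} [NeZero R] {α : Type*} [Fintype α]

theorem sum_zmultiples_char (b c : ZMod R) :
    ∑ z : AddSubgroup.zmultiples b, (ZMod.stdAddChar (N := R)) ((z : ZMod R) * c) =
      if b * c = 0 then (addOrderOf b : ℂ) else 0 := by
  classical
  have hcard : Fintype.card (AddSubgroup.zmultiples b) = addOrderOf b := by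
    rw [← Nat.card_eq_fintype_card, Nat.card_zmultiples]
  let φ : AddChar (AddSubgroup.zmultiples b) ℂ :=
    { toFun := fun z => (ZMod.stdAddChar (N := R)) ((z : ZMod R) * c)
      map_zero_eq_one' := by simp
      map_add_eq_mul' := by
        intro x y
        simp only [AddSubgroup.coe_add, add_mul, AddChar.map_add_eq_mul] }
  have h := AddChar.sum_eq_ite φ
  have h1 : φ = 0 ↔ b * c = 0 := by
    constructor
    · intro h0
      by_contra hbc
      have hp := ZMod.isPrimitive_stdAddChar R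
      have := hp hbc
      apply this
      ext t
      have hz : φ ⟨(t : ZMod R) * b, by
        rw [AddSubgroup.mem_zmultiples_iff]
        exact ⟨(t.val : ℤ), by simp⟩⟩ = 1 := by
        rw [h0]; rfl
      have : (ZMod.stdAddChar (N := R)) ((t * b) * c) = 1 := hz
      simp only [AddChar.mulShift_apply, AddChar.one_apply]
      rw [← this]
      congr 1
      ring
    · intro h0
      ext z
      obtain ⟨k, hk⟩ := AddSubgroup.mem_zmultiples_iff.1 z.2
      have : (z : ZMod R) * c = 0 := by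
        rw [← hk, zsmul_eq_mul, mul_assoc, h0, mul_zero]
      change (ZMod.stdAddChar (N := R)) ((z : ZMod R) * c) = 1
      rw [this]; simp
  have h2 : ∑ z : AddSubgroup.zmultiples b, (ZMod.stdAddChar (N := R)) ((z : ZMod R) * c) =
      ∑ z, φ z := rfl
  rw [h2, h]
  simp only [h1, hcard]

/-- Number of collisions of `a` modulo `g`. -/
def collA (a : α → ℕ) (g : ℕ) : ℕ :=
  ((univ : Finset (α × α)).filter (fun p => a p.1 ≡ a p.2 [MOD g])).card

/-- The inner sum. -/
noncomputable def hsum (a : α → ℕ) (z : ZMod R) : ℂ :=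
  ∑ t, (ZMod.stdAddChar (N := R)) (z * (a t : ZMod R))

/-- The bilinear sum. -/
noncomputable def esum (a : α → ℕ) (b : ZMod R) : ℂ :=
  ∑ s, hsum a (b * (a s : ZMod R))

theorem norm_sq_hsum (a : α → ℕ) (z : ZMod R) :
    ((‖hsum a z‖ ^ 2 : ℝ) : ℂ) =
      ∑ t, ∑ t', (ZMod.stdAddChar (N := R)) (z * ((a t : ZMod R) - (a t' : ZMod R))) := by
  rw [← Complex.normSq_eq_norm_sq, Complex.normSq_eq_conj_mul_self, mul_comm]
  unfold hsum
  rw [map_sum, Finset.sum_mul_sum]
  refine Finset.sum_congr rfl fun t _ => Finset.sum_congr rfl fun t' _ => ?_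
  have : (starRingEnd ℂ) ((ZMod.stdAddChar (N := R)) (z * (a t' : ZMod R))) =
      (ZMod.stdAddChar (N := R)) (-(z * (a t' : ZMod R))) := by
    rw [AddChar.map_neg_eq_conj]
  rw [this, ← AddChar.map_add_eq_mul]
  congr 1
  ring

theorem sum_norm_sq_hsum (a : α → ℕ) (b : ZMod R) :
    ∑ z : AddSubgroup.zmultiples b, ‖hsum a (z : ZMod R)‖ ^ 2 =
      (addOrderOf b : ℝ) * collA a (addOrderOf b) := by
  classical
  have h : ((∑ z : AddSubgroup.zmultiples b, ‖hsum a (z : ZMod R)‖ ^ 2 : ℝ) : ℂ) =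
      (((addOrderOf b : ℝ) * collA a (addOrderOf b) : ℝ) : ℂ) := by
    rw [Complex.ofReal_sum]
    simp only [norm_sq_hsum]
    rw [Finset.sum_comm]
    have : ∀ t : α, ∑ z : AddSubgroup.zmultiples b, ∑ t' : α,
        (ZMod.stdAddChar (N := R)) ((z : ZMod R) * ((a t : ZMod R) - (a t' : ZMod R))) =
        ∑ t' : α, if a t ≡ a t' [MOD addOrderOf b] then (addOrderOf b : ℂ) else 0 := by
      intro t
      rw [Finset.sum_comm]
      refine Finset.sum_congr rfl fun t' _ => ?_
      rw [sum_zmultiples_char]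
      have h1 : b * ((a t : ZMod R) - (a t' : ZMod R)) = 0 ↔ a t ≡ a t' [MOD addOrderOf b] := by
        rw [mul_sub, sub_eq_zero, mul_natCast_eq_iff]
      simp only [h1]
    rw [Finset.sum_congr rfl fun t _ => this t]
    rw [← Finset.sum_product', ← Finset.sum_filter, Finset.sum_const, collA]
    push_cast
    rw [nsmul_eq_mul, mul_comm]
    rfl
  exact_mod_cast h

theorem norm_sq_esum_le (a : α → ℕ) (b : ZMod R) :
    ‖esum a b‖ ^ 2 ≤ (addOrderOf b : ℝ) * (collA a (addOrderOf b) : ℝ) ^ 2 := by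
  classical
  set H := AddSubgroup.zmultiples b
  let zs : α → H := fun s => ⟨b * (a s : ZMod R), by
    rw [AddSubgroup.mem_zmultiples_iff]
    exact ⟨(a s : ℤ), by simp [mul_comm]⟩⟩
  let ρ : H → ℝ := fun z => ∑ s, if zs s = z then (1 : ℝ) else 0
  have hρ0 : ∀ z, 0 ≤ ρ z := fun z => Finset.sum_nonneg fun s _ => by split_ifs <;> norm_num
  have hE : esum a b = ∑ z : H, (ρ z : ℂ) * hsum a (z : ZMod R) := by
    unfold esum
    simp only [ρ, Complex.ofReal_sum, Finset.sum_mul]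
    rw [Finset.sum_comm]
    refine Finset.sum_congr rfl fun s _ => ?_
    rw [Finset.sum_eq_single (zs s)]
    · simp [zs]
    · intro z _ hz
      simp [Ne.symm hz]
    · simp only [mem_univ, not_true_eq_false, ↓reduceIte, Complex.ofReal_one, one_mul, IsEmpty.forall_iff]
  have hρ2 : ∑ z : H, ρ z ^ 2 = collA a (addOrderOf b) := by
    simp only [ρ, sq, Finset.sum_mul_sum]
    rw [Finset.sum_comm]
    have : ∀ s : α, ∑ z : H, ∑ s' : α, (if zs s = z then (1 : ℝ) else 0) *
        (if zs s' = z then (1 : ℝ) else 0) =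
        ∑ s' : α, if a s ≡ a s' [MOD addOrderOf b] then (1 : ℝ) else 0 := by
      intro s
      rw [Finset.sum_comm]
      refine Finset.sum_congr rfl fun s' _ => ?_
      rw [Finset.sum_eq_single (zs s)]
      · have h1 : zs s' = zs s ↔ a s ≡ a s' [MOD addOrderOf b] := by
          rw [← mul_natCast_eq_iff, Subtype.ext_iff]
          exact ⟨fun h => h.symm, fun h => h.symm⟩
        simp [h1]
      · intro z _ hz
        simp [Ne.symm hz]
      · simp only [mem_univ, not_true_eq_false, ↓reduceIte, mul_ite, mul_one, mul_zero, ite_eq_right_iff, one_ne_zero, imp_false, IsEmpty.forall_iff]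
    rw [Finset.sum_congr rfl fun s _ => this s]
    rw [← Finset.sum_product', ← Finset.sum_filter, Finset.sum_const, collA]
    simp only [univ_product_univ, nsmul_eq_mul, mul_one]
  have h1 : ‖esum a b‖ ≤ ∑ z : H, ρ z * ‖hsum a (z : ZMod R)‖ := by
    rw [hE]
    refine (norm_sum_le _ _).trans (le_of_eq ?_)
    refine Finset.sum_congr rfl fun z _ => ?_
    rw [norm_mul, Complex.norm_real, Real.norm_of_nonneg (hρ0 z)]
  have h2 : (∑ z : H, ρ z * ‖hsum a (z : ZMod R)‖) ^ 2 ≤
      (∑ z : H, ρ z ^ 2) * ∑ z : H, ‖hsum a (z : ZMod R)‖ ^ 2 :=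
    Finset.sum_mul_sq_le_sq_mul_sq _ _ _
  have h3 : ‖esum a b‖ ^ 2 ≤ (∑ z : H, ρ z * ‖hsum a (z : ZMod R)‖) ^ 2 :=
    pow_le_pow_left₀ (norm_nonneg _) h1 2
  refine h3.trans (h2.trans (le_of_eq ?_))
  rw [hρ2, sum_norm_sq_hsum]
  ring

theorem sum_esum_pow (a : α → ℕ) (k : ℕ)
    (hno : ∀ P : Fin k → α × α, ¬ R ∣ ∑ j, a (P j).1 * a (P j).2) :
    ∑ b : ZMod R, (esum a b) ^ k = 0 := by
  classical
  have h1 : ∀ b : ZMod R, esum a b =
      ∑ p : α × α, (ZMod.stdAddChar (N := R)) (b * ((a p.1 * a p.2 : ℕ) : ZMod R)) := by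
    intro b
    unfold esum hsum
    rw [← Finset.sum_product']
    refine Finset.sum_congr rfl fun p _ => ?_
    congr 1
    push_cast
    ring
  have h2 : ∀ b : ZMod R, (esum a b) ^ k =
      ∑ P : Fin k → α × α, (ZMod.stdAddChar (N := R))
        (b * ((∑ j, a (P j).1 * a (P j).2 : ℕ) : ZMod R)) := by
    intro b
    rw [h1, Fintype.sum_pow]
    refine Finset.sum_congr rfl fun P _ => ?_
    rw [← char_sum, ← Finset.mul_sum]
    congr 2
    push_cast
    rfl
  simp only [h2]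
  rw [Finset.sum_comm]
  refine Finset.sum_eq_zero fun P _ => ?_
  rw [AddChar.sum_mulShift _ (ZMod.isPrimitive_stdAddChar R), if_neg]
  · simp
  · intro h0
    exact hno P ((ZMod.natCast_eq_zero_iff _ _).1 h0)

theorem sum_inv_cube_lt (R : ℕ) [NeZero R] :
    ∑ b ∈ (univ : Finset (ZMod R)).erase 0, (1 : ℝ) / (addOrderOf b : ℝ) ^ 3 < 1 := by
  classical
  have hmaps : ∀ b ∈ (univ : Finset (ZMod R)).erase 0, addOrderOf b ∈ Finset.Ico 2 (R + 1) := by
    intro b hb
    rw [Finset.mem_erase] at hb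
    rw [Finset.mem_Ico]
    have h1 : addOrderOf b ∣ R := by
      have := addOrderOf_dvd_card (x := b)
      rwa [ZMod.card] at this
    have h2 : 0 < addOrderOf b := Nat.pos_of_dvd_of_pos h1 (NeZero.pos R)
    have h3 : addOrderOf b ≠ 1 := by
      rw [Ne, AddMonoid.addOrderOf_eq_one_iff]
      exact hb.1
    exact ⟨by omega, Nat.lt_succ_of_le (Nat.le_of_dvd (NeZero.pos R) h1)⟩
  rw [← Finset.sum_fiberwise_of_maps_to hmaps]
  have h1 : ∀ g ∈ Finset.Ico 2 (R + 1),
      ∑ b ∈ ((univ : Finset (ZMod R)).erase 0).filter (fun b => addOrderOf b = g),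
        (1 : ℝ) / (addOrderOf b : ℝ) ^ 3 ≤ 1 / (g : ℝ) ^ 2 := by
    intro g hg
    rw [Finset.mem_Ico] at hg
    have hgpos : (0 : ℝ) < g := by
      have : 0 < g := by omega
      exact_mod_cast this
    have hcard : (((univ : Finset (ZMod R)).erase 0).filter (fun b => addOrderOf b = g)).card ≤ g := by
      refine le_trans (Finset.card_le_card ?_)
        (IsAddCyclic.card_nsmul_eq_zero_le (α := ZMod R) (n := g) (by omega))
      intro b hb
      rw [Finset.mem_filter] at hb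
      rw [Finset.mem_filter]
      refine ⟨Finset.mem_univ _, ?_⟩
      rw [← hb.2]
      exact addOrderOf_nsmul_eq_zero b
    have h2 : ∑ b ∈ ((univ : Finset (ZMod R)).erase 0).filter (fun b => addOrderOf b = g),
        (1 : ℝ) / (addOrderOf b : ℝ) ^ 3 =
        ∑ b ∈ ((univ : Finset (ZMod R)).erase 0).filter (fun b => addOrderOf b = g),
        (1 : ℝ) / (g : ℝ) ^ 3 := by
      refine Finset.sum_congr rfl fun b hb => ?_
      rw [Finset.mem_filter] at hb
      rw [hb.2]
    rw [h2, Finset.sum_const, nsmul_eq_mul]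
    have hc : ((((univ : Finset (ZMod R)).erase 0).filter (fun b => addOrderOf b = g)).card : ℝ) ≤ g := by
      exact_mod_cast hcard
    calc _ ≤ (g : ℝ) * (1 / (g : ℝ) ^ 3) := by
          apply mul_le_mul_of_nonneg_right hc
          positivity
      _ = 1 / (g : ℝ) ^ 2 := by
          field_simp
  refine lt_of_le_of_lt (Finset.sum_le_sum h1) ?_
  -- telescoping
  have h3 : ∀ M : ℕ, ∑ g ∈ Finset.Ico 2 (M + 2), (1 : ℝ) / (g : ℝ) ^ 2 ≤ 1 - 1 / (M + 1 : ℝ) := by
    intro M
    induction M with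
    | zero => simp only [zero_add, Std.le_refl, Ico_eq_empty_of_le, one_div, sum_empty, CharP.cast_eq_zero, ne_eq, one_ne_zero, not_false_eq_true, div_self, sub_self]
    | succ M ih =>
      rw [Finset.sum_Ico_succ_top (by omega)]
      push_cast
      have hM : (0 : ℝ) < M + 1 := by positivity
      have hM2 : (0 : ℝ) < M + 2 := by positivity
      have : (1 : ℝ) / (M + 2) ^ 2 ≤ 1 / (M + 1) - 1 / (M + 2) := by
        rw [div_sub_div _ _ hM.ne' hM2.ne', div_le_div_iff₀ (by positivity) (by positivity)]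
        linarith
      have e1 : (1 : ℝ) / (M + 1 + 1) = 1 / (M + 2) := by ring
      rw [e1]
      linarith only [ih, this]
  obtain ⟨M, rfl⟩ : ∃ M, R = M + 1 := ⟨R - 1, by have := NeZero.pos R; omega⟩
  have := h3 M
  have hM : (0 : ℝ) < 1 / (M + 1 : ℝ) := by positivity
  have e : M + 1 + 1 = M + 2 := by ring
  rw [e]
  linarith only [this, hM]

end Bilinear

theorem exists_dvd_sum {n : ℕ} (x : Fin n → ℕ) (R : ℕ) (hR : 0 < R)
    (h : ∀ g, g ∣ R → 1 < g → (coll x g) ^ 4 * g ^ 3 ≤ 4 ^ (4 * n)) :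
    ∃ S T : Fin 12 → Finset (Fin n), R ∣ ∑ j, pr x (S j) * pr x (T j) := by
  classical
  by_contra hno
  push Not at hno
  have : NeZero R := ⟨hR.ne'⟩
  set a : Finset (Fin n) → ℕ := pr x with ha
  have hsum0 : ∑ b : ZMod R, (esum a b) ^ 12 = 0 :=
    sum_esum_pow a 12 (fun P => hno (fun j => (P j).1) (fun j => (P j).2))
  have h0 : esum a (0 : ZMod R) = 4 ^ n := by
    unfold esum hsum
    simp only [zero_mul, AddChar.map_zero_eq_one, Finset.sum_const, Finset.card_univ,
      Fintype.card_finset, Fintype.card_fin, nsmul_eq_mul, mul_one]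
    push_cast
    rw [← mul_pow]
    norm_num
  have hbound : ∀ b ∈ (univ : Finset (ZMod R)).erase 0,
      ‖(esum a b) ^ 12‖ ≤ (4 : ℝ) ^ (12 * n) * (1 / (addOrderOf b : ℝ) ^ 3) := by
    intro b hb
    rw [Finset.mem_erase] at hb
    set g := addOrderOf b with hg
    have h1 : g ∣ R := by
      have := addOrderOf_dvd_card (x := b)
      rwa [ZMod.card] at this
    have h2 : 0 < g := Nat.pos_of_dvd_of_pos h1 (NeZero.pos R)
    have h3 : g ≠ 1 := by
      rw [hg, Ne, AddMonoid.addOrderOf_eq_one_iff]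
      exact hb.1
    have h4 := h g h1 (by omega)
    have h5 : ((collA a g : ℕ) : ℝ) ^ 4 * (g : ℝ) ^ 3 ≤ (4 : ℝ) ^ (4 * n) := by
      exact_mod_cast h4
    have h6 := norm_sq_esum_le a b
    rw [← hg] at h6
    have hgp : (0 : ℝ) < g := by exact_mod_cast h2
    have h7 : ‖esum a b‖ ^ 12 ≤ ((g : ℝ) * (collA a g : ℝ) ^ 2) ^ 6 := by
      have := pow_le_pow_left₀ (by (clear * - this; positivity)) h6 6
      calc ‖esum a b‖ ^ 12 = (‖esum a b‖ ^ 2) ^ 6 := by ring
        _ ≤ _ := this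
    have h8 : (((collA a g : ℕ) : ℝ) ^ 4 * (g : ℝ) ^ 3) ^ 3 ≤ ((4 : ℝ) ^ (4 * n)) ^ 3 :=
      pow_le_pow_left₀ (by (clear * - h2; positivity)) h5 3
    rw [norm_pow, mul_one_div, le_div_iff₀ (by positivity)]
    calc ‖esum a b‖ ^ 12 * (g : ℝ) ^ 3 ≤ ((g : ℝ) * (collA a g : ℝ) ^ 2) ^ 6 * (g : ℝ) ^ 3 :=
          mul_le_mul_of_nonneg_right h7 (by positivity)
      _ = (((collA a g : ℕ) : ℝ) ^ 4 * (g : ℝ) ^ 3) ^ 3 := by ring
      _ ≤ ((4 : ℝ) ^ (4 * n)) ^ 3 := h8
      _ = (4 : ℝ) ^ (12 * n) := by rw [← pow_mul]; congr 1; ring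
  have h9 : (4 : ℝ) ^ (12 * n) ≤ ∑ b ∈ (univ : Finset (ZMod R)).erase 0, ‖(esum a b) ^ 12‖ := by
    have e1 : (esum a (0 : ZMod R)) ^ 12 = - ∑ b ∈ (univ : Finset (ZMod R)).erase 0, (esum a b) ^ 12 := by
      rw [← Finset.add_sum_erase _ _ (Finset.mem_univ (0 : ZMod R))] at hsum0
      exact eq_neg_of_add_eq_zero_left hsum0
    have e2 : ‖(esum a (0 : ZMod R)) ^ 12‖ = (4 : ℝ) ^ (12 * n) := by
      rw [h0, norm_pow, norm_pow]
      simp only [Complex.norm_ofNat]
      rw [← pow_mul]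
      congr 1; ring
    rw [← e2, e1, norm_neg]
    exact norm_sum_le _ _
  have h10 := h9.trans (Finset.sum_le_sum hbound)
  rw [← Finset.mul_sum] at h10
  have h11 := sum_inv_cube_lt R
  have h12 : (0 : ℝ) < (4 : ℝ) ^ (12 * n) := by positivity
  nlinarith only [h10, h11, h12]

end Vale.Agent.P012
end
end

section

section

namespace Vale.Agent.P012

open Finset

theorem count_fact {n : ℕ} (U : Finset (Fin n)) :
    ∀ (A : Finset (Fin n → ℕ)) (y : Fin n → ℕ) (v : ℕ),
      (∀ x ∈ A, (∀ i, i ∉ U → x i = y i) ∧ (∀ i ∈ U, (x i).Prime) ∧ ∏ i ∈ U, x i = v) →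
      A.card ≤ (U.card).factorial := by
  classical
  induction U using Finset.induction_on with
  | empty =>
    intro A y v h
    have : A ⊆ {y} := by
      intro x hx
      rw [Finset.mem_singleton]
      funext i
      exact (h x hx).1 i (Finset.notMem_empty i)
    simpa only [card_empty, Nat.factorial_zero, ge_iff_le, card_singleton] using Finset.card_le_card this
  | insert i U hi ih =>
    intro A y v h
    rcases A.eq_empty_or_nonempty with rfl | ⟨x0, hx0⟩
    · simp
    have h0 := h x0 hx0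
    have hT : (A.image (fun x => x i)).card ≤ U.card + 1 := by
      have : A.image (fun x => x i) ⊆ (insert i U).image x0 := by
        intro p hp
        rw [Finset.mem_image] at hp
        obtain ⟨x, hx, rfl⟩ := hp
        have hxi := h x hx
        have hp1 : (x i).Prime := hxi.2.1 i (Finset.mem_insert_self _ _)
        have hdvd : x i ∣ ∏ j ∈ insert i U, x0 j := by
          rw [h0.2.2, ← hxi.2.2]
          exact Finset.dvd_prod_of_mem _ (Finset.mem_insert_self _ _)
        obtain ⟨j, hj, hjd⟩ := (hp1.prime.dvd_finsetProd_iff _).1 hdvd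
        rw [Finset.mem_image]
        exact ⟨j, hj, ((Nat.prime_dvd_prime_iff_eq hp1 (h0.2.1 j hj)).1 hjd).symm⟩
      calc _ ≤ ((insert i U).image x0).card := Finset.card_le_card this
        _ ≤ (insert i U).card := Finset.card_image_le
        _ = U.card + 1 := Finset.card_insert_of_notMem hi
    have hf : ∀ p ∈ A.image (fun x => x i),
        (A.filter (fun x => x i = p)).card ≤ (U.card).factorial := by
      intro p hp
      refine ih (A.filter (fun x => x i = p)) (Function.update y i p) (v / p) ?_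
      intro x hx
      rw [Finset.mem_filter] at hx
      obtain ⟨hxA, hxi⟩ := hx
      obtain ⟨h1, h2, h3⟩ := h x hxA
      refine ⟨?_, ?_, ?_⟩
      · intro j hj
        by_cases hji : j = i
        · subst hji; simp [hxi]
        · rw [Function.update_of_ne hji]
          exact h1 j (by simp [hji, hj])
      · intro j hj
        exact h2 j (Finset.mem_insert_of_mem hj)
      · rw [Finset.prod_insert hi, hxi] at h3
        have hpos : 0 < p := by
          rw [← hxi]; exact (h2 i (Finset.mem_insert_self _ _)).pos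
        rw [← h3, Nat.mul_div_cancel_left _ hpos]
    have := Finset.card_le_mul_card_image (f := fun x : Fin n → ℕ => x i) A _ hf
    rw [Finset.card_insert_of_notMem hi, Nat.factorial_succ]
    calc A.card ≤ (U.card).factorial * (A.image (fun x => x i)).card := this
      _ ≤ (U.card).factorial * (U.card + 1) := Nat.mul_le_mul_left _ hT
      _ = _ := by ring

theorem card_congr_le (V : Finset ℕ) (g M : ℕ) (hM : ∀ v ∈ V, v ≤ M)
    (hc : ∀ v ∈ V, ∀ w ∈ V, v ≡ w [MOD g]) : V.card ≤ M / g + 1 := by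
  classical
  have h1 : V.card ≤ (Finset.range (M / g + 1)).card := by
    refine Finset.card_le_card_of_injOn (fun v => v / g) ?_ ?_
    · intro v hv
      simp only [Finset.coe_range, Set.mem_Iio]
      exact Nat.lt_succ_of_le (Nat.div_le_div_right (hM v hv))
    · intro v hv w hw hvw
      have h2 : v % g = w % g := hc v hv w hw
      have h3 : v / g = w / g := hvw
      rw [← Nat.div_add_mod v g, ← Nat.div_add_mod w g, h2, h3]
  simpa only [ge_iff_le, card_range] using h1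

theorem count_pair {n g Y : ℕ} (P : Finset ℕ) (hP : ∀ p ∈ P, p.Prime ∧ p ≤ Y)
    (S T U : Finset (Fin n)) (hU : U ⊆ S \ T) :
    (((Fintype.piFinset (fun _ : Fin n => P)).filter (fun x => ∀ i, (x i).Coprime g)).filter
      (fun x => pr x S ≡ pr x T [MOD g])).card ≤
      (((Y ^ U.card) / g + 1) * (U.card).factorial) * P.card ^ (n - U.card) := by
  classical
  set A := ((Fintype.piFinset (fun _ : Fin n => P)).filter (fun x => ∀ i, (x i).Coprime g)).filter
      (fun x => pr x S ≡ pr x T [MOD g]) with hA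
  have hUS : U ⊆ S := hU.trans Finset.sdiff_subset
  have hUT : ∀ i ∈ U, i ∉ T := fun i hi => (Finset.mem_sdiff.1 (hU hi)).2
  let r : (Fin n → ℕ) → (Fin n → ℕ) := fun x i => if i ∈ U then 0 else x i
  have himg : (A.image r).card ≤ P.card ^ (n - U.card) := by
    have h1 : A.image r ⊆ Fintype.piFinset (fun i : Fin n => if i ∈ U then {0} else P) := by
      intro y hy
      rw [Finset.mem_image] at hy
      obtain ⟨x, hx, rfl⟩ := hy
      rw [Fintype.mem_piFinset]
      intro i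
      rw [hA, Finset.mem_filter, Finset.mem_filter, Fintype.mem_piFinset] at hx
      by_cases hi : i ∈ U
      · simp [r, hi]
      · simp only [r, hi, if_false]
        exact hx.1.1 i
    refine (Finset.card_le_card h1).trans (le_of_eq ?_)
    rw [Fintype.card_piFinset]
    have h2 : ∀ i : Fin n, (if i ∈ U then ({0} : Finset ℕ) else P).card =
        if i ∈ U then 1 else P.card := by
      intro i; split_ifs <;> simp
    rw [Finset.prod_congr rfl fun i _ => h2 i, Finset.prod_ite]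
    simp only [Finset.prod_const_one, one_mul, Finset.prod_const]
    congr 1
    have : (univ.filter (fun i : Fin n => i ∉ U)) = univ \ U := by
      ext i; simp only [mem_filter, mem_univ, true_and, mem_sdiff]
    rw [this, Finset.card_sdiff_of_subset (Finset.subset_univ _)]
    simp only [card_univ, Fintype.card_fin]
  have hfib : ∀ y ∈ A.image r, (A.filter (fun x => r x = y)).card ≤
      ((Y ^ U.card) / g + 1) * (U.card).factorial := by
    intro y hy
    set F := A.filter (fun x => r x = y) with hF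
    have hFx : ∀ x ∈ F, (∀ i, x i ∈ P) ∧ (∀ i, (x i).Coprime g) ∧
        pr x S ≡ pr x T [MOD g] ∧ ∀ i, i ∉ U → x i = y i := by
      intro x hx
      rw [hF, Finset.mem_filter, hA, Finset.mem_filter, Finset.mem_filter,
        Fintype.mem_piFinset] at hx
      refine ⟨hx.1.1.1, hx.1.1.2, hx.1.2, ?_⟩
      intro i hi
      have := congrFun hx.2 i
      simpa [r, hi] using this
    let w : (Fin n → ℕ) → ℕ := fun x => ∏ i ∈ U, x i
    have hw : (F.image w).card ≤ (Y ^ U.card) / g + 1 := by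
      refine card_congr_le _ g _ ?_ ?_
      · intro v hv
        obtain ⟨x, hx, rfl⟩ := Finset.mem_image.1 hv
        exact Finset.prod_le_pow_card _ _ _ (fun i _ => (hP _ ((hFx x hx).1 i)).2)
      · intro v hv v' hv'
        obtain ⟨x, hx, rfl⟩ := Finset.mem_image.1 hv
        obtain ⟨x', hx', rfl⟩ := Finset.mem_image.1 hv'
        obtain ⟨-, hcop, hmod, hy1⟩ := hFx x hx
        obtain ⟨-, hcop', hmod', hy1'⟩ := hFx x' hx'
        have e1 : ∀ z : Fin n → ℕ, pr z S = w z * ∏ i ∈ S \ U, z i := by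
          intro z
          rw [pr, mul_comm, Finset.prod_sdiff hUS]
        have e2 : ∏ i ∈ S \ U, x i = ∏ i ∈ S \ U, x' i := by
          refine Finset.prod_congr rfl fun i hi => ?_
          have hi' : i ∉ U := (Finset.mem_sdiff.1 hi).2
          rw [hy1 i hi', hy1' i hi']
        have e3 : pr x T = pr x' T := by
          refine Finset.prod_congr rfl fun i hi => ?_
          have hi' : i ∉ U := fun h => hUT i h hi
          rw [hy1 i hi', hy1' i hi']
        have e4 : Nat.Coprime g (∏ i ∈ S \ U, x' i) := by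
          refine Nat.Coprime.prod_right fun i _ => (hcop' i).symm
        have e5 : w x * ∏ i ∈ S \ U, x' i ≡ w x' * ∏ i ∈ S \ U, x' i [MOD g] := by
          rw [← e1 x', ← e2, ← e1 x]
          exact hmod.trans (e3 ▸ hmod'.symm)
        exact Nat.ModEq.cancel_right_of_coprime e4 e5
    have hv : ∀ v ∈ F.image w, (F.filter (fun x => w x = v)).card ≤ (U.card).factorial := by
      intro v _
      refine count_fact U _ y v ?_
      intro x hx
      rw [Finset.mem_filter] at hx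
      obtain ⟨h1, -, -, h4⟩ := hFx x hx.1
      exact ⟨h4, fun i _ => (hP _ (h1 i)).1, hx.2⟩
    have := Finset.card_le_mul_card_image (f := w) F _ hv
    calc F.card ≤ (U.card).factorial * (F.image w).card := this
      _ ≤ (U.card).factorial * ((Y ^ U.card) / g + 1) := Nat.mul_le_mul_left _ hw
      _ = _ := by ring
  have := Finset.card_le_mul_card_image (f := r) A _ hfib
  exact this.trans (Nat.mul_le_mul_left _ himg)

theorem card_small_sets {n : ℕ} (hn : 2 ≤ n) (m : ℕ) :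
    ((univ : Finset (Finset (Fin n))).filter (fun D => D.card < m)).card ≤ n ^ m := by
  classical
  induction m with
  | zero => simp
  | succ m ih =>
    have h1 : (univ : Finset (Finset (Fin n))).filter (fun D => D.card < m + 1) ⊆
        (univ : Finset (Finset (Fin n))).filter (fun D => D.card < m) ∪
          (univ : Finset (Finset (Fin n))).filter (fun D => D.card = m) := by
      intro D hD
      simp only [Finset.mem_filter, Finset.mem_univ, true_and, Finset.mem_union] at hD ⊢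
      omega
    have h2 : ((univ : Finset (Finset (Fin n))).filter (fun D => D.card = m)).card ≤ n ^ m := by
      have : (univ : Finset (Finset (Fin n))).filter (fun D => D.card = m) =
          Finset.powersetCard m (univ : Finset (Fin n)) := by
        ext D
        simp only [univ_filter_card_eq, mem_powersetCard, subset_univ, true_and]
      rw [this, Finset.card_powersetCard, Finset.card_univ, Fintype.card_fin]
      exact Nat.choose_le_pow n m
    calc _ ≤ _ := Finset.card_le_card h1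
      _ ≤ _ := Finset.card_union_le _ _
      _ ≤ n ^ m + n ^ m := Nat.add_le_add ih h2
      _ = 2 * n ^ m := by ring
      _ ≤ n * n ^ m := Nat.mul_le_mul_right _ hn
      _ = n ^ (m + 1) := by ring

theorem card_near_pairs {n : ℕ} (hn : 2 ≤ n) (m : ℕ) :
    ((univ : Finset (Finset (Fin n) × Finset (Fin n))).filter
      (fun p => (symmDiff p.1 p.2).card < m)).card ≤ 2 ^ n * n ^ m := by
  classical
  have h1 : ((univ : Finset (Finset (Fin n) × Finset (Fin n))).filter
      (fun p => (symmDiff p.1 p.2).card < m)).card ≤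
      ((univ : Finset (Finset (Fin n))) ×ˢ
        ((univ : Finset (Finset (Fin n))).filter (fun D => D.card < m))).card := by
    refine Finset.card_le_card_of_injOn (fun p => (p.1, symmDiff p.1 p.2)) ?_ ?_
    · intro p hp
      simp only [Finset.coe_filter, Finset.mem_univ, true_and, Set.mem_ofPred_eq] at hp
      simp only [Finset.coe_product, Set.mem_prod, Finset.coe_univ, Set.mem_univ, true_and,
        Finset.coe_filter, Finset.mem_univ, Set.mem_ofPred_eq]
      exact hp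
    · intro p _ q _ hpq
      simp only [Prod.mk.injEq] at hpq
      obtain ⟨h1, h2⟩ := hpq
      rw [h1] at h2
      exact Prod.ext h1 (symmDiff_right_injective _ h2)
  refine h1.trans ?_
  rw [Finset.card_product, Finset.card_univ, Fintype.card_finset, Fintype.card_fin]
  exact Nat.mul_le_mul_left _ (card_small_sets hn m)

theorem count_far_pair {n k g Y : ℕ} (P : Finset ℕ) (hP : ∀ p ∈ P, p.Prime ∧ p ≤ Y)
    (S T : Finset (Fin n)) (hST : 2 * k ≤ (symmDiff S T).card) :
    k ≤ n ∧ (((Fintype.piFinset (fun _ : Fin n => P)).filter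
      (fun x => ∀ i, (x i).Coprime g)).filter (fun x => pr x S ≡ pr x T [MOD g])).card ≤
      (((Y ^ k) / g + 1) * k.factorial) * P.card ^ (n - k) := by
  classical
  have h1 : (symmDiff S T).card ≤ (S \ T).card + (T \ S).card := by
    rw [symmDiff_def]
    exact Finset.card_union_le _ _
  have hle : ∀ V : Finset (Fin n), V.card ≤ n := fun V => by
    simpa only [Fintype.card_fin] using Finset.card_le_univ V
  rcases (by omega : k ≤ (S \ T).card ∨ k ≤ (T \ S).card) with h | h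
  · obtain ⟨U, hU, hUc⟩ := Finset.exists_subset_card_eq h
    refine ⟨hUc ▸ hle U, ?_⟩
    have := count_pair (g := g) P hP S T U hU
    rwa [hUc] at this
  · obtain ⟨U, hU, hUc⟩ := Finset.exists_subset_card_eq h
    refine ⟨hUc ▸ hle U, ?_⟩
    have := count_pair (g := g) P hP T S U hU
    rw [hUc] at this
    refine le_trans (le_of_eq ?_) this
    congr 1
    refine Finset.filter_congr fun x _ => ?_
    exact ⟨fun h => h.symm, fun h => h.symm⟩

theorem collision_bound {n k g Y : ℕ} (P : Finset ℕ) (hP : ∀ p ∈ P, p.Prime ∧ p ≤ Y)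
    (hP0 : P.Nonempty) (hn : 2 ≤ n) (hg : 0 < g) (hgk : g ≤ Y ^ k) :
    (∑ x ∈ (Fintype.piFinset (fun _ : Fin n => P)).filter (fun x => ∀ i, (x i).Coprime g),
        (coll x g : ℝ)) ≤
      (P.card : ℝ) ^ n * (4 ^ n * (2 * (k.factorial : ℝ) * ((Y : ℝ) / P.card) ^ k / g)
        + 2 ^ n * (n : ℝ) ^ (2 * k)) := by
  classical
  set X := (Fintype.piFinset (fun _ : Fin n => P)).filter (fun x => ∀ i, (x i).Coprime g) with hX
  have hPc : (0 : ℝ) < P.card := by exact_mod_cast hP0.card_pos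
  have hgr : (0 : ℝ) < g := by exact_mod_cast hg
  set c : Finset (Fin n) × Finset (Fin n) → ℕ :=
    fun p => (X.filter (fun x => pr x p.1 ≡ pr x p.2 [MOD g])).card with hc
  have hswap : (∑ x ∈ X, (coll x g : ℝ)) = ∑ p : Finset (Fin n) × Finset (Fin n), (c p : ℝ) := by
    have : ∀ x : Fin n → ℕ, (coll x g : ℝ) = ∑ p : Finset (Fin n) × Finset (Fin n),
        if pr x p.1 ≡ pr x p.2 [MOD g] then (1 : ℝ) else 0 := by
      intro x
      rw [coll, ← Finset.sum_filter, Finset.sum_const]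
      simp only [nsmul_eq_mul, mul_one]
    rw [Finset.sum_congr rfl fun x _ => this x, Finset.sum_comm]
    refine Finset.sum_congr rfl fun p _ => ?_
    rw [hc, ← Finset.sum_filter, Finset.sum_const]
    simp
  have hcX : ∀ p, (c p : ℝ) ≤ (P.card : ℝ) ^ n := by
    intro p
    have h1 : c p ≤ P.card ^ n := by
      refine (Finset.card_le_card (Finset.filter_subset _ _)).trans ?_
      refine (Finset.card_le_card (Finset.filter_subset _ _)).trans ?_
      rw [Fintype.card_piFinset]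
      simp only [prod_const, card_univ, Fintype.card_fin, Std.le_refl]
    exact_mod_cast h1
  set B : ℝ := (P.card : ℝ) ^ n * (2 * (k.factorial : ℝ) * ((Y : ℝ) / P.card) ^ k / g) with hB
  have hB0 : 0 ≤ B := by (clear * - hP0 hg; positivity)
  have hfar : ∀ p : Finset (Fin n) × Finset (Fin n), ¬ (symmDiff p.1 p.2).card < 2 * k →
      (c p : ℝ) ≤ B := by
    intro p hp
    obtain ⟨hkn, h2⟩ := count_far_pair (g := g) P hP p.1 p.2 (not_lt.1 hp)
    have h3 : (c p : ℝ) ≤ (((Y ^ k / g : ℕ) : ℝ) + 1) * (k.factorial : ℝ) *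
        (P.card : ℝ) ^ (n - k) := by
      exact_mod_cast h2
    have h4 : ((Y ^ k / g : ℕ) : ℝ) ≤ (Y : ℝ) ^ k / g := by
      have := @Nat.cast_div_le ℝ _ _ _ (Y ^ k) g
      simpa only [ge_iff_le, Nat.cast_pow] using this
    have h5 : (1 : ℝ) ≤ (Y : ℝ) ^ k / g := by
      rw [le_div_iff₀ hgr, one_mul]
      exact_mod_cast hgk
    have h6 : (P.card : ℝ) ^ (n - k) = (P.card : ℝ) ^ n / (P.card : ℝ) ^ k := by
      rw [eq_div_iff (by (clear * - hP0; positivity)), ← pow_add]
      congr 1; omega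
    calc (c p : ℝ) ≤ (((Y ^ k / g : ℕ) : ℝ) + 1) * (k.factorial : ℝ) *
        (P.card : ℝ) ^ (n - k) := h3
      _ ≤ (2 * ((Y : ℝ) ^ k / g)) * (k.factorial : ℝ) * (P.card : ℝ) ^ (n - k) := by
          apply mul_le_mul_of_nonneg_right _ (by (clear * - hP0; positivity))
          apply mul_le_mul_of_nonneg_right _ (by positivity)
          linarith only [h4, h5]
      _ = B := by
          rw [hB, h6, div_pow]
          (clear * - hP0 hg; field_simp)
  have hnear := card_near_pairs hn (2 * k)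
  have hsplit : ∑ p : Finset (Fin n) × Finset (Fin n), (c p : ℝ) ≤
      (2 ^ n * (n : ℝ) ^ (2 * k)) * (P.card : ℝ) ^ n + 4 ^ n * B := by
    rw [← Finset.sum_filter_add_sum_filter_not (s := univ)
      (p := fun p : Finset (Fin n) × Finset (Fin n) => (symmDiff p.1 p.2).card < 2 * k)]
    apply add_le_add
    · refine (Finset.sum_le_card_nsmul _ _ ((P.card : ℝ) ^ n) fun p _ => hcX p).trans ?_
      rw [nsmul_eq_mul]
      apply mul_le_mul_of_nonneg_right _ (by (clear * - hP0; positivity))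
      exact_mod_cast hnear
    · refine (Finset.sum_le_card_nsmul _ _ B fun p hp => hfar p (Finset.mem_filter.1 hp).2).trans ?_
      rw [nsmul_eq_mul]
      apply mul_le_mul_of_nonneg_right _ hB0
      have h1 : ((univ : Finset (Finset (Fin n) × Finset (Fin n))).filter
          (fun p => ¬ (symmDiff p.1 p.2).card < 2 * k)).card ≤ 4 ^ n := by
        refine (Finset.card_le_card (Finset.filter_subset _ _)).trans (le_of_eq ?_)
        rw [Finset.card_univ, Fintype.card_prod, Fintype.card_finset, Fintype.card_fin, ← mul_pow]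
        norm_num
      exact_mod_cast h1
  rw [hswap]
  refine hsplit.trans (le_of_eq ?_)
  rw [hB]
  ring

end Vale.Agent.P012
end
end

section

section

namespace Vale.Agent.P012

open Finset Filter

/-- Interface statement [D]. -/
def DvdStatement : Prop := ∀ {n : ℕ} (x : Fin n → ℕ) (R : ℕ), 0 < R →
    (∀ g, g ∣ R → 1 < g → (coll x g) ^ 4 * g ^ 3 ≤ 4 ^ (4 * n)) →
    ∃ S T : Fin 12 → Finset (Fin n), R ∣ ∑ j, pr x (S j) * pr x (T j)

theorem isUF_of_good (hD : DvdStatement) {n : ℕ} (x : Fin n → ℕ) (hx : ∀ i, 0 < x i)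
    (z e R : ℕ) (hR : 0 < R)
    (h1 : ∀ t, 2 ≤ t → t ≤ z → ¬ t ^ (e + 1) ∣ R)
    (h2 : ∀ g, g ∣ R → z < g → (coll x g) ^ 4 * g ^ 3 ≤ 4 ^ (4 * n)) :
    IsUF 12 ((R : ℚ) / ((z.factorial ^ e * (∏ i, x i) ^ 2 : ℕ) : ℚ)) := by
  set M := z.factorial ^ e with hM
  have hMpos : 0 < M := by positivity
  set Rs := Nat.gcd R M with hRs
  have hRspos : 0 < Rs := Nat.gcd_pos_of_pos_left _ hR
  set Rr := R / Rs with hRr
  have hRs_dvd : Rs ∣ R := Nat.gcd_dvd_left _ _
  have hRs_dvdM : Rs ∣ M := Nat.gcd_dvd_right _ _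
  have hmul : Rs * Rr = R := Nat.mul_div_cancel' hRs_dvd
  have hRrpos : 0 < Rr := Nat.div_pos (Nat.le_of_dvd hR hRs_dvd) hRspos
  have hlarge : ∀ g, g ∣ Rr → 1 < g → z < g := by
    intro g hg hg1
    by_contra hcon
    push Not at hcon
    set p := g.minFac with hp
    have hpp : p.Prime := Nat.minFac_prime (by omega)
    have hpz : p ≤ z := (Nat.minFac_le (by omega)).trans hcon
    have hpRr : p ∣ Rr := (Nat.minFac_dvd g).trans hg
    set v := R.factorization p with hv
    have hpv : p ^ v ∣ R := Nat.ordProj_dvd R p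
    have hve : v ≤ e := by
      by_contra hc
      push Not at hc
      exact h1 p hpp.two_le hpz ((Nat.pow_dvd_pow p hc).trans hpv)
    have hpM : p ^ v ∣ M := by
      have : p ∣ z.factorial := (Nat.Prime.dvd_factorial hpp).2 hpz
      exact (Nat.pow_dvd_pow p hve).trans (pow_dvd_pow_of_dvd this e)
    have hpRs : p ^ v ∣ Rs := Nat.dvd_gcd hpv hpM
    have : p ^ (v + 1) ∣ R := by
      rw [← hmul, pow_succ]
      exact Nat.mul_dvd_mul hpRs hpRr
    exact Nat.pow_succ_factorization_not_dvd hR.ne' hpp this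
  obtain ⟨S, T, hST⟩ := hD x Rr hRrpos (fun g hg hg1 =>
    h2 g (hg.trans ⟨Rs, by rw [mul_comm]; exact hmul.symm⟩) (hlarge g hg hg1))
  set P := ∏ i, x i with hP
  have hPpos : 0 < P := Finset.prod_pos (fun i _ => hx i)
  have hprpos : ∀ U, 0 < pr x U := fun U => Finset.prod_pos (fun i _ => hx i)
  have hprdvd : ∀ U, pr x U ∣ P := fun U =>
    Finset.prod_dvd_prod_of_subset _ _ _ (Finset.subset_univ U)
  obtain ⟨w, hw⟩ := hST
  have hsumpos : 0 < ∑ j, pr x (S j) * pr x (T j) := by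
    apply Finset.sum_pos
    · intro j _; exact Nat.mul_pos (hprpos _) (hprpos _)
    · exact ⟨0, Finset.mem_univ _⟩
  have hwpos : 0 < w := by
    rcases Nat.eq_zero_or_pos w with h0 | h0
    · rw [hw, h0] at hsumpos; simp at hsumpos
    · exact h0
  set D := w * (M / Rs) with hDdef
  have hMRs : 0 < M / Rs := Nat.div_pos (Nat.le_of_dvd hMpos hRs_dvdM) hRspos
  have hDpos : 0 < D := Nat.mul_pos hwpos hMRs
  have hdvd : ∀ j, pr x (S j) * pr x (T j) ∣ P ^ 2 := fun j => by
    rw [sq]; exact Nat.mul_dvd_mul (hprdvd _) (hprdvd _)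
  have hUF := isUF_sum (Finset.univ : Finset (Fin 12))
    (fun j => D * (P ^ 2 / (pr x (S j) * pr x (T j)))) (fun j _ => by
      apply Nat.mul_pos hDpos
      apply Nat.div_pos (Nat.le_of_dvd (by (clear * - hPpos; positivity)) (hdvd j))
      exact Nat.mul_pos (hprpos _) (hprpos _))
  have hcard : (Finset.univ : Finset (Fin 12)).card = 12 := by simp
  rw [hcard] at hUF
  convert hUF using 1
  have hPQ : (P : ℚ) ≠ 0 := by (clear * - hPpos; positivity)
  have hDQ : (D : ℚ) ≠ 0 := by (clear * - hwpos hMRs; positivity)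
  have hterm : ∀ j : Fin 12, (1 : ℚ) / ((D * (P ^ 2 / (pr x (S j) * pr x (T j))) : ℕ) : ℚ)
      = ((pr x (S j) * pr x (T j) : ℕ) : ℚ) / (D * P ^ 2) := by
    intro j
    have ha : ((pr x (S j) * pr x (T j) : ℕ) : ℚ) ≠ 0 := by
      have := Nat.mul_pos (hprpos (S j)) (hprpos (T j))
      (clear * - this; positivity)
    rw [Nat.cast_mul, Nat.cast_div (hdvd j) ha]
    rw [Nat.cast_pow]
    field_simp
  rw [Finset.sum_congr rfl (fun j _ => hterm j), ← Finset.sum_div, ← Nat.cast_sum, hw]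
  have hRsQ : (Rs : ℚ) ≠ 0 := by positivity
  have hwQ : (w : ℚ) ≠ 0 := by (clear * - hwpos; positivity)
  have hMQ : (M : ℚ) ≠ 0 := by positivity
  have hDQ' : (D : ℚ) = w * (M / Rs) := by
    rw [hDdef, Nat.cast_mul, Nat.cast_div hRs_dvdM hRsQ]
  rw [hDQ', ← hmul]
  push_cast
  field_simp

end Vale.Agent.P012
end
end

section

section

namespace Vale.Agent.P012

open Finset Filter

/-- `g` is bad for `x`. -/
def Bad {n : ℕ} (x : Fin n → ℕ) (g : ℕ) : Prop :=
  (∀ i, (x i).Coprime g) ∧ 4 ^ (4 * n) < (coll x g) ^ 4 * g ^ 3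

open Classical in
/-- Interface statement [C]. -/
def VectorStatement : Prop :=
    ∃ m₀ : ℕ, ∀ m ≥ m₀, ∃ x : Fin (64 * m) → ℕ,
      (∀ i, (x i).Prime ∧ m ^ 2 < x i ∧ x i ≤ m ^ 48) ∧
      ∑ g ∈ (Finset.Ioc (Nat.sqrt m) (2 ^ (32 * m))).filter (fun g => Bad x g),
        ((2 : ℝ) ^ (31 * m) / g + 1) ≤ 2 ^ (31 * m) / 16

theorem card_dvd_Ioc (y q g : ℕ) :
    (((Finset.Ioc y (y + q)).filter (fun R => g ∣ R)).card : ℝ) ≤ (q : ℝ) / g + 1 := by
  have h1 : ((Finset.Ioc y (y + q)).filter (fun R => g ∣ R)).card = (y + q) / g - y / g := by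
    have h2 := Nat.Ioc_filter_dvd_card_eq_div (y + q) g
    have h3 := Nat.Ioc_filter_dvd_card_eq_div y g
    have h4 : (Finset.Ioc 0 (y + q)).filter (fun R => g ∣ R)
        = (Finset.Ioc 0 y).filter (fun R => g ∣ R) ∪
          (Finset.Ioc y (y + q)).filter (fun R => g ∣ R) := by
      ext R
      simp only [Finset.mem_filter, Finset.mem_Ioc, Finset.mem_union]
      constructor
      · rintro ⟨⟨h5, h6⟩, h7⟩
        by_cases h8 : R ≤ y
        · exact Or.inl ⟨⟨h5, h8⟩, h7⟩
        · exact Or.inr ⟨⟨by omega, h6⟩, h7⟩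
      · rintro (⟨⟨h5, h6⟩, h7⟩ | ⟨⟨h5, h6⟩, h7⟩)
        · exact ⟨⟨h5, by omega⟩, h7⟩
        · exact ⟨⟨by omega, h6⟩, h7⟩
    have h5 : Disjoint ((Finset.Ioc 0 y).filter (fun R => g ∣ R))
        ((Finset.Ioc y (y + q)).filter (fun R => g ∣ R)) := by
      rw [Finset.disjoint_left]
      intro R hR hR'
      simp only [Finset.mem_filter, Finset.mem_Ioc] at hR hR'
      omega
    rw [h4, Finset.card_union_of_disjoint h5, h3] at h2
    omega
  rw [h1]
  rcases Nat.eq_zero_or_pos g with h0 | h0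
  · subst h0; simp only [Nat.div_zero, tsub_self, CharP.cast_eq_zero, div_zero, zero_add, zero_le_one]
  have h2 : (y + q) / g ≤ y / g + q / g + 1 := by
    rw [Nat.div_le_iff_le_mul_add_pred h0]
    have := Nat.div_add_mod y g
    have := Nat.div_add_mod q g
    have := Nat.mod_lt y h0
    have := Nat.mod_lt q h0
    have : g * (y / g + q / g + 1) = g * (y / g) + g * (q / g) + g := by ring
    omega
  have h3' : (y + q) / g - y / g ≤ q / g + 1 := by
    generalize (y + q) / g = A at *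
    generalize y / g = B at *
    generalize q / g = D at *
    omega
  have h3 : (((y + q) / g - y / g : ℕ) : ℝ) ≤ ((q / g + 1 : ℕ) : ℝ) := Nat.cast_le.2 h3'
  refine h3.trans ?_
  push_cast
  have := @Nat.cast_div_le ℝ _ _ _ q g
  linarith only [this]

open Classical in
theorem key_of (hD : DvdStatement) (hC : VectorStatement) : KeyStatement := by
  obtain ⟨m₀, hm₀⟩ := hC
  -- numeric requirements
  have hnum : ∃ m₁ : ℕ, ∀ m ≥ m₁, Nat.sqrt m * (Nat.log 2 m + 6) ≤ m := by
    refine ⟨256, fun m hm => ?_⟩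
    have hL : 8 ≤ Nat.log 2 m := Nat.le_log_of_pow_le (by norm_num) (by simpa using hm)
    have hmL : 2 ^ (Nat.log 2 m) ≤ m := Nat.pow_log_le_self 2 (by omega)
    have hlin : ∀ h : ℕ, 4 ≤ h → 2 * h + 7 ≤ 2 ^ h := by
      intro h hh
      induction h, hh using Nat.le_induction with
      | base => norm_num
      | succ k hk ih => rw [pow_succ]; omega
    have h1 : Nat.log 2 m + 6 ≤ 2 ^ (Nat.log 2 m / 2) := by
      have := hlin (Nat.log 2 m / 2) (by omega)
      omega
    have h2 : 2 ^ (Nat.log 2 m / 2) ≤ Nat.sqrt m := by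
      rw [Nat.le_sqrt, ← pow_add]
      exact (Nat.pow_le_pow_right (by norm_num) (by omega)).trans hmL
    calc Nat.sqrt m * (Nat.log 2 m + 6) ≤ Nat.sqrt m * Nat.sqrt m :=
          Nat.mul_le_mul_left _ (h1.trans h2)
      _ ≤ m := Nat.sqrt_le m
  obtain ⟨m₁, hm₁⟩ := hnum
  refine ⟨max (max m₀ m₁) 8192, fun m hm => ?_⟩
  have hmm₀ : m₀ ≤ m := by omega
  have hmm₁ : m₁ ≤ m := by omega
  have hm8 : 8192 ≤ m := by omega
  obtain ⟨x, hx, hsum⟩ := hm₀ m hmm₀
  set z := Nat.sqrt m with hz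
  set e := Nat.log 2 m + 6 with he
  have hze : z * e ≤ m := hm₁ m hmm₁
  have hzm : z ≤ m := Nat.sqrt_le_self m
  have he1 : 64 * m < 2 ^ (e + 1) := by
    have : m < 2 ^ (Nat.log 2 m + 1) := Nat.lt_pow_succ_log_self (by norm_num) m
    calc 64 * m < 64 * 2 ^ (Nat.log 2 m + 1) := by omega
      _ = 2 ^ (e + 1) := by rw [he]; ring
  set G := (Finset.Ioc 0 (2 ^ (32 * m))).filter (fun R =>
    (∀ i, ¬ x i ∣ R) ∧ (∀ t ∈ Finset.Icc 2 z, ¬ t ^ (e + 1) ∣ R) ∧
      ∀ g, g ∣ R → z < g → ¬ Bad x g) with hG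
  refine ⟨z.factorial ^ e * (∏ i, x i) ^ 2, ?_, ?_, G, ?_, ?_⟩
  · have : 0 < ∏ i, x i := Finset.prod_pos (fun i _ => (hx i).1.pos)
    (clear * - this; positivity)
  · have h1 : z.factorial ^ e ≤ m ^ m := by
      calc z.factorial ^ e ≤ (z ^ z) ^ e := Nat.pow_le_pow_left (Nat.factorial_le_pow z) e
        _ = z ^ (z * e) := by rw [← pow_mul]
        _ ≤ m ^ (z * e) := Nat.pow_le_pow_left hzm _
        _ ≤ m ^ m := Nat.pow_le_pow_right (by omega) hze
    have h2 : ∏ i, x i ≤ m ^ (48 * (64 * m)) := by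
      calc ∏ i, x i ≤ ∏ i : Fin (64 * m), m ^ 48 := Finset.prod_le_prod' (fun i _ => (hx i).2.2)
        _ = m ^ (48 * (64 * m)) := by simp only [prod_const, card_univ, Fintype.card_fin, pow_mul]
    calc z.factorial ^ e * (∏ i, x i) ^ 2 ≤ m ^ m * (m ^ (48 * (64 * m))) ^ 2 :=
          Nat.mul_le_mul h1 (Nat.pow_le_pow_left h2 2)
      _ = m ^ (m + 48 * (64 * m) * 2) := by rw [← pow_mul, ← pow_add]
      _ ≤ m ^ (7000 * m) := Nat.pow_le_pow_right (by omega) (by (clear * - hm8; omega))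
  · intro R hR
    rw [hG, Finset.mem_filter, Finset.mem_Ioc] at hR
    obtain ⟨⟨hR0, hRZ⟩, hR1, hR2, hR3⟩ := hR
    apply isUF_of_good hD x (fun i => (hx i).1.pos) z e R hR0
    · intro t ht1 ht2
      exact hR2 t (Finset.mem_Icc.2 ⟨ht1, ht2⟩)
    · intro g hg hzg
      have h4 := hR3 g hg hzg
      by_contra hcon
      push Not at hcon
      apply h4
      refine ⟨fun i => ?_, hcon⟩
      exact Nat.Coprime.coprime_dvd_right hg (((hx i).1.coprime_iff_not_dvd).2 (hR1 i))
  · intro y q hq hyq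
    -- cover the non-good integers
    set I := Finset.Ioc y (y + q) with hI
    have hcover : I.filter (fun R => R ∉ G) ⊆
        ((Finset.univ : Finset (Fin (64 * m))).biUnion (fun i => I.filter (fun R => x i ∣ R))) ∪
        ((Finset.Icc 2 z).biUnion (fun t => I.filter (fun R => t ^ (e + 1) ∣ R))) ∪
        (((Finset.Ioc z (2 ^ (32 * m))).filter (fun g => Bad x g)).biUnion
          (fun g => I.filter (fun R => g ∣ R))) := by
      intro R hR
      rw [Finset.mem_filter] at hR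
      obtain ⟨hRI, hRG⟩ := hR
      have hRI' := hRI
      rw [hI, Finset.mem_Ioc] at hRI'
      have hR0 : 0 < R := by omega
      have hRZ : R ≤ 2 ^ (32 * m) := by omega
      rw [hG, Finset.mem_filter, Finset.mem_Ioc] at hRG
      by_cases h1 : ∀ i, ¬ x i ∣ R
      · by_cases h2 : ∀ t ∈ Finset.Icc 2 z, ¬ t ^ (e + 1) ∣ R
        · have h3 : ¬ ∀ g, g ∣ R → z < g → ¬ Bad x g := fun h3 => hRG ⟨⟨hR0, hRZ⟩, h1, h2, h3⟩
          push Not at h3
          obtain ⟨g, hg1, hg2, hg3⟩ := h3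
          apply Finset.mem_union_right
          rw [Finset.mem_biUnion]
          refine ⟨g, Finset.mem_filter.2 ⟨Finset.mem_Ioc.2 ⟨hg2, ?_⟩, hg3⟩,
            Finset.mem_filter.2 ⟨hRI, hg1⟩⟩
          exact (Nat.le_of_dvd hR0 hg1).trans hRZ
        · push Not at h2
          obtain ⟨t, ht1, ht2⟩ := h2
          apply Finset.mem_union_left
          apply Finset.mem_union_right
          rw [Finset.mem_biUnion]
          exact ⟨t, ht1, Finset.mem_filter.2 ⟨hRI, ht2⟩⟩
      · push Not at h1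
        obtain ⟨i, hi⟩ := h1
        apply Finset.mem_union_left
        apply Finset.mem_union_left
        rw [Finset.mem_biUnion]
        exact ⟨i, Finset.mem_univ _, Finset.mem_filter.2 ⟨hRI, hi⟩⟩
    have hqpos : (0 : ℝ) < q := by
      have : 0 < 2 ^ (31 * m) := by positivity
      exact_mod_cast (by omega : 0 < q)
    have hmR : (8192 : ℝ) ≤ m := by exact_mod_cast hm8
    have hqm : (64 : ℝ) * (64 * m) ≤ q := by
      have h1 : 64 * (64 * m) ≤ 2 ^ (31 * m) := by
        have h2 : m < 2 ^ m := Nat.lt_two_pow_self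
        calc 64 * (64 * m) = 2 ^ 12 * m := by ring
          _ ≤ 2 ^ m * 2 ^ m := Nat.mul_le_mul (Nat.pow_le_pow_right (by norm_num) (by omega)) h2.le
          _ = 2 ^ (m + m) := by rw [pow_add]
          _ ≤ 2 ^ (31 * m) := Nat.pow_le_pow_right (by norm_num) (by omega)
      exact_mod_cast h1.trans hq
    -- first part
    have hA : ((((Finset.univ : Finset (Fin (64 * m))).biUnion
        (fun i => I.filter (fun R => x i ∣ R))).card : ℕ) : ℝ) ≤ q / 16 := by
      calc ((((Finset.univ : Finset (Fin (64 * m))).biUnion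
          (fun i => I.filter (fun R => x i ∣ R))).card : ℕ) : ℝ)
          ≤ ((∑ i : Fin (64 * m), (I.filter (fun R => x i ∣ R)).card : ℕ) : ℝ) := by
            exact_mod_cast Finset.card_biUnion_le
        _ = ∑ i : Fin (64 * m), ((I.filter (fun R => x i ∣ R)).card : ℝ) := by push_cast; rfl
        _ ≤ ∑ i : Fin (64 * m), ((q : ℝ) / (m ^ 2) + 1) := by
            apply Finset.sum_le_sum
            intro i _
            refine (card_dvd_Ioc y q (x i)).trans ?_
            have h1 : ((m : ℝ) ^ 2) ≤ x i := by exact_mod_cast (hx i).2.1.le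
            have h2 : (0 : ℝ) < (m : ℝ) ^ 2 := by positivity
            (clear * - hqpos hm8 h1; gcongr)
        _ = 64 * m * ((q : ℝ) / (m ^ 2) + 1) := by simp only [sum_const, card_univ, Fintype.card_fin, smul_add, nsmul_eq_mul, Nat.cast_mul, Nat.cast_ofNat, mul_one]; ring
        _ = 64 * q / m + 64 * m := by (clear * - hm8 hqpos; field_simp)
        _ ≤ q / 64 + q / 64 := by
            apply add_le_add
            · rw [div_le_div_iff₀ (by positivity) (by positivity)]
              nlinarith only [hmR]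
            · linarith only [hqm]
        _ ≤ q / 16 := by linarith only [hqm]
    have hB : ((((Finset.Icc 2 z).biUnion (fun t => I.filter (fun R => t ^ (e + 1) ∣ R))).card
        : ℕ) : ℝ) ≤ q / 16 := by
      calc ((((Finset.Icc 2 z).biUnion (fun t => I.filter (fun R => t ^ (e + 1) ∣ R))).card
          : ℕ) : ℝ)
          ≤ ((∑ t ∈ Finset.Icc 2 z, (I.filter (fun R => t ^ (e + 1) ∣ R)).card : ℕ) : ℝ) := by
            exact_mod_cast Finset.card_biUnion_le
        _ = ∑ t ∈ Finset.Icc 2 z, ((I.filter (fun R => t ^ (e + 1) ∣ R)).card : ℝ) := by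
            push_cast; rfl
        _ ≤ ∑ t ∈ Finset.Icc 2 z, ((q : ℝ) / (64 * m) + 1) := by
            apply Finset.sum_le_sum
            intro t ht
            rw [Finset.mem_Icc] at ht
            refine (card_dvd_Ioc y q (t ^ (e + 1))).trans ?_
            have h1 : ((64 * m : ℕ) : ℝ) ≤ ((t ^ (e + 1) : ℕ) : ℝ) := by
              apply Nat.cast_le.2
              exact he1.le.trans (Nat.pow_le_pow_left ht.1 _)
            have h2 : (0 : ℝ) < 64 * m := by positivity
            push_cast at h1 ⊢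
            (clear * - hqpos hm8 h1; gcongr)
        _ = ((Finset.Icc 2 z).card : ℝ) * ((q : ℝ) / (64 * m) + 1) := by simp only [sum_const, Nat.card_Icc, Nat.reduceSubDiff, smul_add, nsmul_eq_mul, mul_one]; ring
        _ ≤ m * ((q : ℝ) / (64 * m) + 1) := by
            have h1 : ((Finset.Icc 2 z).card : ℝ) ≤ m := by
              have : (Finset.Icc 2 z).card ≤ m := by rw [Nat.card_Icc]; omega
              exact_mod_cast this
            (clear * - h1 hqpos hm8; gcongr)
        _ = q / 64 + m := by (clear * - hm8 hqpos; field_simp)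
        _ ≤ q / 16 := by linarith only [hqm]
    have hC' : (((((Finset.Ioc z (2 ^ (32 * m))).filter (fun g => Bad x g)).biUnion
          (fun g => I.filter (fun R => g ∣ R))).card : ℕ) : ℝ) ≤ q / 16 := by
      have hHpos : (0 : ℝ) < 2 ^ (31 * m) := by positivity
      have hqH : (2 : ℝ) ^ (31 * m) ≤ q := by exact_mod_cast hq
      calc (((((Finset.Ioc z (2 ^ (32 * m))).filter (fun g => Bad x g)).biUnion
          (fun g => I.filter (fun R => g ∣ R))).card : ℕ) : ℝ)
          ≤ ((∑ g ∈ (Finset.Ioc z (2 ^ (32 * m))).filter (fun g => Bad x g),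
              (I.filter (fun R => g ∣ R)).card : ℕ) : ℝ) := by
            exact_mod_cast Finset.card_biUnion_le
        _ = ∑ g ∈ (Finset.Ioc z (2 ^ (32 * m))).filter (fun g => Bad x g),
              ((I.filter (fun R => g ∣ R)).card : ℝ) := by push_cast; rfl
        _ ≤ ∑ g ∈ (Finset.Ioc z (2 ^ (32 * m))).filter (fun g => Bad x g),
              (q / 2 ^ (31 * m)) * ((2 : ℝ) ^ (31 * m) / g + 1) := by
            apply Finset.sum_le_sum
            intro g hg
            refine (card_dvd_Ioc y q g).trans ?_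
            rw [mul_add, mul_one]
            apply add_le_add
            · apply le_of_eq; (clear * - hqpos; field_simp)
            · rw [le_div_iff₀ hHpos]; linarith only [hqH]
        _ = (q / 2 ^ (31 * m)) * ∑ g ∈ (Finset.Ioc z (2 ^ (32 * m))).filter (fun g => Bad x g),
              ((2 : ℝ) ^ (31 * m) / g + 1) := by rw [Finset.mul_sum]
        _ ≤ (q / 2 ^ (31 * m)) * (2 ^ (31 * m) / 16) := by
            apply mul_le_mul_of_nonneg_left hsum; (clear * - hqpos; positivity)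
        _ = q / 16 := by (clear * - hqpos; field_simp)
    have hfinal : (((I.filter (fun R => R ∉ G)).card : ℕ) : ℝ) ≤ q / 16 + q / 16 + q / 16 := by
      refine le_trans ?_ (add_le_add (add_le_add hA hB) hC')
      have h1 := (Finset.card_le_card hcover).trans ((Finset.card_union_le _ _).trans
        (Nat.add_le_add_right (Finset.card_union_le _ _) _))
      exact_mod_cast h1
    have : (4 : ℝ) * ((I.filter (fun R => R ∉ G)).card : ℝ) ≤ q := by linarith only [hfinal]
    exact_mod_cast this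

end Vale.Agent.P012
end
end

section

section

namespace Vale.Agent.P012

open Finset Filter

/-- Interface statement [B]. -/
def CollStatement : Prop := ∀ {n k g Y : ℕ} (P : Finset ℕ), (∀ p ∈ P, p.Prime ∧ p ≤ Y) →
    P.Nonempty → 2 ≤ n → 0 < g → g ≤ Y ^ k →
    (∑ x ∈ (Fintype.piFinset (fun _ : Fin n => P)).filter (fun x => ∀ i, (x i).Coprime g),
        (coll x g : ℝ)) ≤
      (P.card : ℝ) ^ n * (4 ^ n * (2 * (k.factorial : ℝ) * ((Y : ℝ) / P.card) ^ k / g)
        + 2 ^ n * (n : ℝ) ^ (2 * k))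

/-- Interface statement [C1]. -/
def PrimeCountStatement : Prop := ∃ m₀ : ℕ, ∀ m ≥ m₀,
    ((m : ℝ) ^ 48) ≤ 100 * Real.log m *
      (((Finset.Ioc (m ^ 2) (m ^ 48)).filter Nat.Prime).card : ℝ)

theorem factorial_le_pow_pred (k : ℕ) (hk : 1 ≤ k) : k.factorial ≤ k ^ (k - 1) := by
  induction k, hk using Nat.le_induction with
  | base => simp
  | succ k hk ih =>
    rw [Nat.factorial_succ]
    calc (k + 1) * k.factorial ≤ (k + 1) * k ^ (k - 1) := Nat.mul_le_mul_left _ ih
      _ ≤ (k + 1) * (k + 1) ^ (k - 1) :=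
          Nat.mul_le_mul_left _ (Nat.pow_le_pow_left (by omega) _)
      _ = (k + 1) ^ (k + 1 - 1) := by
          rw [← pow_succ']; congr 1; omega

/-- The average number of collisions modulo `g`. -/
theorem coll_avg (hB : CollStatement) {m g : ℕ} (P : Finset ℕ) (l : ℝ)
    (hP : ∀ p ∈ P, p.Prime ∧ p ≤ m ^ 48) (hPne : P.Nonempty)
    (hm : 64 ≤ m) (hl1 : 1 ≤ l)
    (hcard : ((m : ℝ) ^ 48) ≤ l * P.card)
    (hlm : 32 * m * l ≤ (m : ℝ) ^ 3)
    (hg1 : 1 < g) (hg2 : g ≤ 2 ^ (32 * m))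
    (u : ℝ) (hu : 0 < u) (hug : u ^ 16 = g) (hlu : 2 * l + 1 ≤ u) :
    (∑ x ∈ (Fintype.piFinset (fun _ : Fin (64 * m) => P)).filter
        (fun x => ∀ i, (x i).Coprime g), (coll x g : ℝ)) ≤
      (P.card : ℝ) ^ (64 * m) * (4 ^ (64 * m) / u ^ 14) := by
  have hm0 : (0 : ℝ) < m := by exact_mod_cast (by omega : 0 < m)
  have hm1 : (1 : ℝ) ≤ m := by exact_mod_cast (by omega : 1 ≤ m)
  have hY1 : 1 < m ^ 48 := Nat.one_lt_pow (by norm_num) (by omega)
  obtain ⟨k, hk⟩ : ∃ k, k = Nat.clog (m ^ 48) g := ⟨_, rfl⟩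
  have hgk : g ≤ (m ^ 48) ^ k := by rw [hk]; exact Nat.le_pow_clog hY1 g
  have hkpred : (m ^ 48) ^ (k - 1) < g := by
    rw [hk]; exact Nat.pow_pred_clog_lt_self hY1 hg1
  have hk1 : 1 ≤ k := by
    rcases Nat.eq_zero_or_pos k with h0 | h0
    · rw [h0] at hgk; simp at hgk; omega
    · exact h0
  have hk32 : k ≤ 32 * m := by
    have h1 : 2 ^ (k - 1) < 2 ^ (32 * m) := by
      calc 2 ^ (k - 1) ≤ (m ^ 48) ^ (k - 1) := Nat.pow_le_pow_left (by omega) _
        _ < g := hkpred
        _ ≤ 2 ^ (32 * m) := hg2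
    have h2 := (Nat.pow_lt_pow_iff_right (by norm_num : 1 < 2)).1 h1
    omega
  have hcardpos : (0 : ℝ) < P.card := by exact_mod_cast hPne.card_pos
  refine (hB P hP hPne (by omega) (by omega) hgk).trans ?_
  apply mul_le_mul_of_nonneg_left _ (by (clear * - hPne hk hgk hkpred hk1 hk32; positivity))
  have hgR : (0 : ℝ) < g := by exact_mod_cast (by omega : 0 < g)
  -- u-bounds
  have hmu : ((m : ℝ) ^ 3) ^ (k - 1) ≤ u := by
    have h1 : (((m : ℝ) ^ 3) ^ (k - 1)) ^ 16 ≤ u ^ 16 := by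
      rw [hug]
      have h2 : (((m ^ 48) ^ (k - 1) : ℕ) : ℝ) ≤ g := by exact_mod_cast hkpred.le
      calc (((m : ℝ) ^ 3) ^ (k - 1)) ^ 16 = ((m : ℝ) ^ 48) ^ (k - 1) := by ring
        _ ≤ (g : ℝ) := by push_cast at h2; exact h2
    exact le_of_pow_le_pow_left₀ (by norm_num) hu.le h1
  -- first term
  have hA : 2 * (k.factorial : ℝ) * (((m ^ 48 : ℕ) : ℝ) / P.card) ^ k / g ≤ 2 * l / u ^ 15 := by
    have h1 : ((m ^ 48 : ℕ) : ℝ) / P.card ≤ l := by
      rw [div_le_iff₀ hcardpos]; push_cast; exact hcard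
    have h2 : (((m ^ 48 : ℕ) : ℝ) / P.card) ^ k ≤ l ^ k :=
      pow_le_pow_left₀ (by (clear * - hm hPne hk hgk hkpred hk1 hk32 hmu; positivity)) h1 k
    have h3 : (k.factorial : ℝ) ≤ (k : ℝ) ^ (k - 1) := by
      exact_mod_cast factorial_le_pow_pred k hk1
    have h4 : (k.factorial : ℝ) * (((m ^ 48 : ℕ) : ℝ) / P.card) ^ k ≤ l * u := by
      calc (k.factorial : ℝ) * (((m ^ 48 : ℕ) : ℝ) / P.card) ^ k
          ≤ (k : ℝ) ^ (k - 1) * l ^ k := mul_le_mul h3 h2 (by positivity) (by positivity)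
        _ = l * (k * l) ^ (k - 1) := by
            obtain ⟨j, rfl⟩ : ∃ j, k = j + 1 := ⟨k - 1, by omega⟩
            simp only [Nat.add_sub_cancel]
            rw [mul_pow, pow_succ]; ring
        _ ≤ l * ((m : ℝ) ^ 3) ^ (k - 1) := by
            apply mul_le_mul_of_nonneg_left _ (by linarith only [hl1])
            apply pow_le_pow_left₀ (by positivity)
            have h5 : (k : ℝ) ≤ 32 * m := by exact_mod_cast hk32
            calc (k : ℝ) * l ≤ 32 * m * l := mul_le_mul_of_nonneg_right h5 (by linarith only [hl1])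
              _ ≤ (m : ℝ) ^ 3 := hlm
        _ ≤ l * u := mul_le_mul_of_nonneg_left hmu (by linarith only [hl1])
    rw [← hug, div_le_div_iff₀ (by positivity) (by positivity)]
    calc 2 * (k.factorial : ℝ) * (((m ^ 48 : ℕ) : ℝ) / P.card) ^ k * u ^ 15
        = 2 * ((k.factorial : ℝ) * (((m ^ 48 : ℕ) : ℝ) / P.card) ^ k) * u ^ 15 := by ring
      _ ≤ 2 * (l * u) * u ^ 15 := by
          apply mul_le_mul_of_nonneg_right _ (by positivity)
          linarith only [h4]
      _ = 2 * l * u ^ 16 := by ring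
  -- second term
  have hBt : (2 : ℝ) ^ (64 * m) * (((64 * m : ℕ) : ℝ)) ^ (2 * k) ≤ 4 ^ (64 * m) * (1 / u ^ 15) := by
    have h1 : ((64 * m) ^ 2) ≤ m ^ 48 := by
      calc (64 * m) ^ 2 ≤ (m * m) ^ 2 := Nat.pow_le_pow_left (Nat.mul_le_mul_right _ hm) 2
        _ = m ^ 4 := by ring
        _ ≤ m ^ 48 := Nat.pow_le_pow_right (by omega) (by norm_num)
    have h2 : (64 * m) ^ (2 * k) ≤ (64 * m) ^ 2 * 2 ^ (32 * m) := by
      calc (64 * m) ^ (2 * k) = (64 * m) ^ 2 * ((64 * m) ^ 2) ^ (k - 1) := by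
            rw [← pow_mul, ← pow_add]; congr 1; omega
        _ ≤ (64 * m) ^ 2 * (m ^ 48) ^ (k - 1) :=
            Nat.mul_le_mul_left _ (Nat.pow_le_pow_left h1 _)
        _ ≤ (64 * m) ^ 2 * 2 ^ (32 * m) := Nat.mul_le_mul_left _ (hkpred.le.trans hg2)
    have h3 : (64 * m) ^ 2 ≤ 2 ^ (2 * m) := by
      have h4 : 64 * m ≤ 2 ^ m := by
        have h5 : ∀ t : ℕ, 64 ≤ t → 64 * t ≤ 2 ^ t := by
          intro t ht
          induction t, ht using Nat.le_induction with
          | base => norm_num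
          | succ t ht ih => rw [pow_succ]; (clear * - ht ih; omega)
        exact h5 m hm
      calc (64 * m) ^ 2 ≤ (2 ^ m) ^ 2 := Nat.pow_le_pow_left h4 2
        _ = 2 ^ (2 * m) := by rw [← pow_mul, mul_comm]
    have h5 : (64 * m) ^ (2 * k) ≤ 2 ^ (34 * m) := by
      calc (64 * m) ^ (2 * k) ≤ (64 * m) ^ 2 * 2 ^ (32 * m) := h2
        _ ≤ 2 ^ (2 * m) * 2 ^ (32 * m) := Nat.mul_le_mul_right _ h3
        _ = 2 ^ (34 * m) := by rw [← pow_add]; congr 1; ring
    have h6 : (((64 * m : ℕ) : ℝ)) ^ (2 * k) ≤ 2 ^ (34 * m) := by exact_mod_cast h5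
    have h7 : u ≤ 2 ^ (2 * m) := by
      have h8 : u ^ 16 ≤ ((2 : ℝ) ^ (2 * m)) ^ 16 := by
        rw [hug]
        have h9 : (g : ℝ) ≤ 2 ^ (32 * m) := by exact_mod_cast hg2
        refine h9.trans (le_of_eq ?_)
        rw [← pow_mul]; congr 1; ring
      exact le_of_pow_le_pow_left₀ (by norm_num) (by positivity) h8
    have h8 : u ^ 15 ≤ 2 ^ (30 * m) := by
      calc u ^ 15 ≤ ((2 : ℝ) ^ (2 * m)) ^ 15 := pow_le_pow_left₀ hu.le h7 15
        _ = 2 ^ (30 * m) := by rw [← pow_mul]; congr 1; ring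
    rw [mul_one_div, le_div_iff₀ (by positivity)]
    calc (2 : ℝ) ^ (64 * m) * (((64 * m : ℕ) : ℝ)) ^ (2 * k) * u ^ 15
        ≤ 2 ^ (64 * m) * 2 ^ (34 * m) * 2 ^ (30 * m) := by (clear * - h6 h8 hu; gcongr)
      _ = 4 ^ (64 * m) := by
          rw [← pow_add, ← pow_add, show (4 : ℝ) = 2 ^ 2 by norm_num, ← pow_mul]
          congr 1; ring
  calc (4 : ℝ) ^ (64 * m) * (2 * (k.factorial : ℝ) * (((m ^ 48 : ℕ) : ℝ) / P.card) ^ k / g)
        + 2 ^ (64 * m) * (((64 * m : ℕ) : ℝ)) ^ (2 * k)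
      ≤ 4 ^ (64 * m) * (2 * l / u ^ 15) + 4 ^ (64 * m) * (1 / u ^ 15) := by
        apply add_le_add _ hBt
        exact mul_le_mul_of_nonneg_left hA (by positivity)
    _ = 4 ^ (64 * m) * ((2 * l + 1) / u ^ 15) := by ring
    _ ≤ 4 ^ (64 * m) * (u / u ^ 15) := by (clear * - hlu hu; gcongr)
    _ = 4 ^ (64 * m) / u ^ 14 := by field_simp

end Vale.Agent.P012
end
end

section

section

namespace Vale.Agent.P012

open Finset Filter

theorem eventually_num : ∃ m₀ : ℕ, ∀ m : ℕ, m₀ ≤ m → (200 * Real.log m + 1) ^ 32 ≤ (m : ℝ) := by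
  have h1 := (isLittleO_log_rpow_atTop (by norm_num : (0 : ℝ) < 1 / 32)).bound
    (by norm_num : (0 : ℝ) < 1 / 400)
  have h2 : ∀ᶠ x : ℝ in atTop, 1 ≤ (1 / 2) * x ^ (1 / 32 : ℝ) := by
    have h3 := (tendsto_rpow_atTop (by norm_num : (0 : ℝ) < 1 / 32)).eventually_ge_atTop 2
    filter_upwards [h3] with x hx
    linarith
  have h4 : ∀ᶠ x : ℝ in atTop, (200 * Real.log x + 1) ^ 32 ≤ x := by
    filter_upwards [h1, h2, eventually_ge_atTop 1] with x hx1 hx2 hx3
    have h5 : 0 ≤ Real.log x := Real.log_nonneg hx3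
    rw [Real.norm_of_nonneg h5, Real.norm_of_nonneg (by positivity)] at hx1
    have h6 : 200 * Real.log x + 1 ≤ x ^ (1 / 32 : ℝ) := by linarith
    calc (200 * Real.log x + 1) ^ 32 ≤ (x ^ (1 / 32 : ℝ)) ^ 32 :=
          pow_le_pow_left₀ (by positivity) h6 32
      _ = x := by
          rw [← Real.rpow_natCast, ← Real.rpow_mul (by linarith only [hx3])]
          norm_num
  obtain ⟨m₀, hm₀⟩ := (tendsto_natCast_atTop_atTop.eventually h4).exists_forall_of_atTop
  exact ⟨m₀, fun m hm => hm₀ m hm⟩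

open Classical in
theorem vector_of (hB : CollStatement) (hC1 : PrimeCountStatement) : VectorStatement := by
  obtain ⟨m₁, hm₁⟩ := hC1
  obtain ⟨m₂, hm₂⟩ := eventually_num
  refine ⟨max (max m₁ m₂) (2 ^ 130), fun m hm => ?_⟩
  have hmm₁ : m₁ ≤ m := le_trans (le_trans (le_max_left _ _) (le_max_left _ _)) hm
  have hmm₂ : m₂ ≤ m := le_trans (le_trans (le_max_right _ _) (le_max_left _ _)) hm
  have hmbig : 2 ^ 130 ≤ m := le_trans (le_max_right _ _) hm
  have hPc := hm₁ m hmm₁
  have hnum := hm₂ m hmm₂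
  obtain ⟨P, hPdef⟩ : ∃ P, P = (Finset.Ioc (m ^ 2) (m ^ 48)).filter Nat.Prime := ⟨_, rfl⟩
  rw [← hPdef] at hPc
  obtain ⟨l, hl⟩ : ∃ l : ℝ, l = 100 * Real.log m := ⟨_, rfl⟩
  rw [← hl] at hPc
  have hm64 : 64 ≤ m := le_trans (by norm_num) hmbig
  have hm3200 : 3200 ≤ m := le_trans (by norm_num) hmbig
  have hm0 : (0 : ℝ) < m := by exact_mod_cast (by omega : 0 < m)
  have hmR : (3200 : ℝ) ≤ m := by exact_mod_cast hm3200
  have hlog1 : 1 ≤ Real.log m := by
    rw [Real.le_log_iff_exp_le hm0]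
    have := Real.exp_one_lt_d9
    linarith only [hmR, this]
  have hlogm : Real.log m ≤ m := by
    have := Real.log_le_sub_one_of_pos hm0
    linarith only [this]
  have hl1 : 1 ≤ l := by rw [hl]; linarith only [hlog1]
  have hlm : 32 * m * l ≤ (m : ℝ) ^ 3 := by
    rw [hl]
    calc 32 * (m : ℝ) * (100 * Real.log m) = 3200 * m * Real.log m := by ring
      _ ≤ m * m * m := by
          apply mul_le_mul _ hlogm (by linarith only [hlog1]) (by positivity)
          exact mul_le_mul_of_nonneg_right hmR hm0.le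
      _ = (m : ℝ) ^ 3 := by ring
  have hPmem : ∀ p ∈ P, p.Prime ∧ m ^ 2 < p ∧ p ≤ m ^ 48 := by
    intro p hp
    rw [hPdef, Finset.mem_filter, Finset.mem_Ioc] at hp
    exact ⟨hp.2, hp.1.1, hp.1.2⟩
  have hPne : P.Nonempty := by
    rw [Finset.nonempty_iff_ne_empty]
    intro h0
    rw [h0] at hPc
    simp only [card_empty, CharP.cast_eq_zero, mul_zero] at hPc
    have : (0 : ℝ) < (m : ℝ) ^ 48 := by positivity
    linarith only [hPc, this]
  have hcardpos : (0 : ℝ) < P.card := by exact_mod_cast hPne.card_pos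
  -- z
  obtain ⟨z, hz⟩ : ∃ z, z = Nat.sqrt m := ⟨_, rfl⟩
  have hz64 : 2 ^ 64 ≤ z := by
    rw [hz, Nat.le_sqrt, ← pow_add]
    exact le_trans (Nat.pow_le_pow_right (by norm_num) (by norm_num)) hmbig
  have hz0 : 0 < z := lt_of_lt_of_le (by norm_num) hz64
  have hzm : m < (z + 1) * (z + 1) := by rw [hz]; exact Nat.lt_succ_sqrt m
  obtain ⟨Z, hZ⟩ : ∃ Z : ℕ, Z = 2 ^ (32 * m) := ⟨_, rfl⟩
  have hzZ : z ≤ Z := by
    calc z ≤ m := by rw [hz]; exact Nat.sqrt_le_self m
      _ ≤ 2 ^ m := Nat.lt_two_pow_self.le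
      _ ≤ Z := by rw [hZ]; exact Nat.pow_le_pow_right (by norm_num) (by omega)
  rw [← hz, ← hZ]
  obtain ⟨H, hH⟩ : ∃ H : ℝ, H = 2 ^ (31 * m) := ⟨_, rfl⟩
  rw [← hH]
  have hHpos : 0 < H := by rw [hH]; positivity
  -- u
  let u : ℕ → ℝ := fun g => (g : ℝ) ^ (1 / 16 : ℝ)
  have hu16 : ∀ g : ℕ, (u g) ^ 16 = g := by
    intro g
    show ((g : ℝ) ^ (1 / 16 : ℝ)) ^ 16 = g
    rw [← Real.rpow_natCast, ← Real.rpow_mul (by (clear * -; positivity))]
    norm_num
  have hupos : ∀ g : ℕ, 0 < g → 0 < u g := by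
    intro g hg
    have : (0 : ℝ) < g := by exact_mod_cast hg
    exact Real.rpow_pos_of_pos this _
  have hu2 : ∀ g : ℕ, 0 < g → 1 / (u g) ^ 2 = (g : ℝ) ^ (-(1 / 8) : ℝ) := by
    intro g hg
    have h0 : (0 : ℝ) < g := by exact_mod_cast hg
    show 1 / ((g : ℝ) ^ (1 / 16 : ℝ)) ^ 2 = _
    rw [← Real.rpow_natCast, ← Real.rpow_mul h0.le, one_div, ← Real.rpow_neg h0.le]
    norm_num
  have hulow : ∀ g : ℕ, z < g → 2 * l + 1 ≤ u g := by
    intro g hg
    have h1 : (2 * l + 1) ^ 32 ≤ ((u g)) ^ 32 := by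
      have h2 : (2 * l + 1) = 200 * Real.log m + 1 := by rw [hl]; ring
      rw [h2]
      refine hnum.trans ?_
      have h3 : (m : ℝ) ≤ (g : ℝ) ^ 2 := by
        have : m ≤ g ^ 2 := by
          calc m ≤ (z + 1) * (z + 1) := hzm.le
            _ ≤ g * g := Nat.mul_le_mul hg hg
            _ = g ^ 2 := by ring
        exact_mod_cast this
      calc (m : ℝ) ≤ (g : ℝ) ^ 2 := h3
        _ = ((u g) ^ 16) ^ 2 := by rw [hu16]
        _ = (u g) ^ 32 := by rw [← pow_mul]
    exact le_of_pow_le_pow_left₀ (by norm_num) (hupos g (by omega)).le h1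
  -- contradiction
  by_contra hcon
  push Not at hcon
  set PF := Fintype.piFinset (fun _ : Fin (64 * m) => P) with hPF
  have hPFcard : (PF.card : ℝ) = (P.card : ℝ) ^ (64 * m) := by
    rw [hPF, Fintype.card_piFinset]; simp only [prod_const, card_univ, Fintype.card_fin, Nat.cast_pow]
  have hPFne : PF.Nonempty := by
    rw [hPF, Fintype.piFinset_nonempty]
    exact fun _ => hPne
  have hlower : (P.card : ℝ) ^ (64 * m) * (H / 16) <
      ∑ x ∈ PF, ∑ g ∈ (Finset.Ioc z Z).filter (fun g => Bad x g), (H / g + 1) := by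
    have h1 : ∑ x ∈ PF, (H / 16) = (P.card : ℝ) ^ (64 * m) * (H / 16) := by
      rw [Finset.sum_const, nsmul_eq_mul, hPFcard]
    rw [← h1]
    apply Finset.sum_lt_sum_of_nonempty hPFne
    intro x hx
    have hx' : ∀ i, x i ∈ P := by
      rw [hPF, Fintype.mem_piFinset] at hx; exact hx
    exact hcon x (fun i => hPmem _ (hx' i))
  have hpt : ∀ g ∈ Finset.Ioc z Z, ∑ x ∈ PF.filter (fun x => Bad x g), (H / g + 1) ≤
      (P.card : ℝ) ^ (64 * m) * (H * (g : ℝ) ^ (-(9 / 8) : ℝ) + (g : ℝ) ^ (-(1 / 8) : ℝ)) := by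
    intro g hg
    rw [Finset.mem_Ioc] at hg
    have hg0 : 0 < g := by omega
    have hgR : (0 : ℝ) < g := by exact_mod_cast hg0
    have hug := hupos g hg0
    have hcoef : 0 ≤ H / g + 1 := by (clear * - hHpos hg0; positivity)
    -- each bad x contributes at least 1
    have h1 : ∑ x ∈ PF.filter (fun x => Bad x g), (1 : ℝ) ≤
        ∑ x ∈ PF.filter (fun x => ∀ i, (x i).Coprime g),
          (coll x g : ℝ) * ((u g) ^ 12 / 4 ^ (64 * m)) := by
      calc ∑ x ∈ PF.filter (fun x => Bad x g), (1 : ℝ)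
          ≤ ∑ x ∈ PF.filter (fun x => Bad x g), (coll x g : ℝ) * ((u g) ^ 12 / 4 ^ (64 * m)) := by
            apply Finset.sum_le_sum
            intro x hx
            rw [Finset.mem_filter] at hx
            have h2 := hx.2.2
            have h3 : ((4 : ℝ) ^ (64 * m)) ^ 4 ≤ ((coll x g : ℝ) * (u g) ^ 12) ^ 4 := by
              have h4 : ((4 ^ (4 * (64 * m)) : ℕ) : ℝ) ≤ (((coll x g) ^ 4 * g ^ 3 : ℕ) : ℝ) := by
                exact_mod_cast h2.le
              push_cast at h4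
              calc ((4 : ℝ) ^ (64 * m)) ^ 4 = 4 ^ (4 * (64 * m)) := by
                    rw [← pow_mul]; congr 1; ring
                _ ≤ (coll x g : ℝ) ^ 4 * (g : ℝ) ^ 3 := h4
                _ = (coll x g : ℝ) ^ 4 * ((u g) ^ 16) ^ 3 := by rw [hu16]
                _ = ((coll x g : ℝ) * (u g) ^ 12) ^ 4 := by ring
            have h5 := le_of_pow_le_pow_left₀ (by norm_num) (by (clear * - hg0; positivity)) h3
            rw [← mul_div_assoc, le_div_iff₀ (by positivity), one_mul]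
            exact h5
        _ ≤ _ := by
            apply Finset.sum_le_sum_of_subset_of_nonneg
            · intro x hx
              rw [Finset.mem_filter] at hx ⊢
              exact ⟨hx.1, hx.2.1⟩
            · intro x _ _; (clear * - hg0; positivity)
    have h2 : ∑ x ∈ PF.filter (fun x => ∀ i, (x i).Coprime g),
          (coll x g : ℝ) * ((u g) ^ 12 / 4 ^ (64 * m)) ≤ (P.card : ℝ) ^ (64 * m) * (1 / (u g) ^ 2) := by
      rw [← Finset.sum_mul]
      have h3 := coll_avg hB P l (fun p hp => ⟨(hPmem p hp).1, (hPmem p hp).2.2⟩) hPne hm64 hl1 hPc hlm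
        (by omega : 1 < g) (by rw [← hZ]; exact hg.2) (u g) hug (hu16 g) (hulow g hg.1)
      calc (∑ x ∈ PF.filter (fun x => ∀ i, (x i).Coprime g), (coll x g : ℝ))
            * ((u g) ^ 12 / 4 ^ (64 * m))
          ≤ ((P.card : ℝ) ^ (64 * m) * (4 ^ (64 * m) / (u g) ^ 14)) * ((u g) ^ 12 / 4 ^ (64 * m)) := by
            apply mul_le_mul_of_nonneg_right h3 (by (clear * - hg0; positivity))
        _ = (P.card : ℝ) ^ (64 * m) * (1 / (u g) ^ 2) := by (clear * - hug hH hHpos hcoef hZ hz hz64 hz0 hzm hzZ hcon hg hl hl1 hlm hulow hPdef hPc hPmem hPne hcardpos hPF hPFcard hPFne hlower h1 h3; field_simp)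
    calc ∑ x ∈ PF.filter (fun x => Bad x g), (H / g + 1)
        = (H / g + 1) * ∑ x ∈ PF.filter (fun x => Bad x g), (1 : ℝ) := by
          rw [Finset.mul_sum]; simp only [sum_const, smul_add, nsmul_eq_mul, mul_one]
      _ ≤ (H / g + 1) * ((P.card : ℝ) ^ (64 * m) * (1 / (u g) ^ 2)) :=
          mul_le_mul_of_nonneg_left (h1.trans h2) hcoef
      _ = (P.card : ℝ) ^ (64 * m) * (H * ((g : ℝ)⁻¹ * (g : ℝ) ^ (-(1 / 8) : ℝ))
            + (g : ℝ) ^ (-(1 / 8) : ℝ)) := by
          rw [hu2 g hg0]; ring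
      _ = _ := by
          have h4 : (g : ℝ)⁻¹ * (g : ℝ) ^ (-(1 / 8) : ℝ) = (g : ℝ) ^ (-(9 / 8) : ℝ) := by
            rw [← Real.rpow_neg_one, ← Real.rpow_add hgR]; norm_num
          rw [h4]
  have hupper : ∑ x ∈ PF, ∑ g ∈ (Finset.Ioc z Z).filter (fun g => Bad x g), (H / g + 1) ≤
      (P.card : ℝ) ^ (64 * m) * (H / 16) := by
    have hswap : ∑ x ∈ PF, ∑ g ∈ (Finset.Ioc z Z).filter (fun g => Bad x g), (H / g + 1)
        = ∑ g ∈ Finset.Ioc z Z, ∑ x ∈ PF.filter (fun x => Bad x g), (H / g + 1) := by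
      simp only [Finset.sum_filter]
      exact Finset.sum_comm
    rw [hswap]
    refine (Finset.sum_le_sum hpt).trans ?_
    rw [← Finset.mul_sum]
    apply mul_le_mul_of_nonneg_left _ (by (clear * - hH hHpos hZ hz hz64 hz0 hzm hzZ hcon hl hl1 hlm hulow hPdef hPc hPmem hPne hcardpos hPF hPFcard hPFne hlower hpt hswap; positivity))
    rw [Finset.sum_add_distrib, ← Finset.mul_sum]
    have h1 := sum_Ioc_rpow_tail z Z hz0 hzZ
    have h2 := sum_Ioc_rpow_head z Z hz0 hzZ
    have h3 : (z : ℝ) ^ (-(1 / 8) : ℝ) ≤ 1 / 256 := by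
      have h4 : ((2 : ℝ) ^ 64) ≤ z := by exact_mod_cast hz64
      have h5 : (z : ℝ) ^ (-(1 / 8) : ℝ) ≤ ((2 : ℝ) ^ 64) ^ (-(1 / 8) : ℝ) :=
        Real.rpow_le_rpow_of_nonpos (by positivity) h4 (by norm_num)
      refine h5.trans (le_of_eq ?_)
      rw [← Real.rpow_natCast, ← Real.rpow_mul (by norm_num)]
      have : ((64 : ℕ) : ℝ) * (-(1 / 8)) = -8 := by norm_num
      rw [this, Real.rpow_neg (by norm_num)]
      norm_num
    have h6 : 2 * (Z : ℝ) ^ (7 / 8 : ℝ) ≤ H / 32 := by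
      have h7 : (Z : ℝ) ^ (7 / 8 : ℝ) = 2 ^ (28 * m) := by
        rw [hZ]
        push_cast
        rw [← Real.rpow_natCast, ← Real.rpow_mul (by norm_num), ← Real.rpow_natCast]
        congr 1
        push_cast; ring
      rw [h7, hH]
      have h8 : (64 : ℝ) * 2 ^ (28 * m) ≤ 2 ^ (31 * m) := by
        have : 31 * m = 28 * m + 3 * m := by ring
        rw [this, pow_add, mul_comm]
        apply mul_le_mul_of_nonneg_left _ (by positivity)
        calc (64 : ℝ) = 2 ^ 6 := by norm_num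
          _ ≤ 2 ^ (3 * m) := pow_le_pow_right₀ (by norm_num) (by (clear * - hmbig; omega))
      linarith only [h8]
    have h9 : H * ∑ g ∈ Finset.Ioc z Z, (g : ℝ) ^ (-(9 / 8) : ℝ) ≤ H * (8 * (1 / 256)) := by
      apply mul_le_mul_of_nonneg_left _ hHpos.le
      linarith only [h1, h3]
    linarith only [h2, h6, h9]
  exact absurd (hlower.trans_le hupper) (lt_irrefl _)

end Vale.Agent.P012
end
end
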